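import Mathlib

/-!
P032: the unit distance graph of the plane, densities, independence ratios and the fractional
chromatic number.
-/

open MeasureTheory Filter
open scoped ENNReal

namespace Vale.Agent.N032X

/-- The Euclidean plane. -/
abbrev Plane := EuclideanSpace ℝ (Fin 2)

/-- The unit distance graph of the plane. -/
def unitGraph : SimpleGraph Plane where
  Adj x y := dist x y = 1
  symm := ⟨fun x y h => by rw [dist_comm]; exact h⟩
  loopless := ⟨fun x h => by simp at h⟩

/-- Upper density of a set in large discs about the origin. -/
noncomputable def upperDensity (A : Set Plane) : ℝ≥0∞ :=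
  limsup (fun R : ℝ => volume (A ∩ Metric.ball 0 R) / volume (Metric.ball (0 : Plane) R)) atTop

/-- `k` Lebesgue measurable sets, each without two points at distance one. -/
def Family {k : ℕ} (A : Fin k → Set Plane) : Prop :=
  ∀ i, NullMeasurableSet (A i) volume ∧ unitGraph.IsIndepSet (A i)

/-- `m_k`: the largest upper density of a union of `k` measurable sets without unit distances. -/
noncomputable def dens (k : ℕ) : ℝ≥0∞ :=
  ⨆ (A : Fin k → Set Plane) (_ : Family A), upperDensity (⋃ i, A i)

/-- The largest size of a subset of `S` which has a proper colouring with `k` colours. -/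
noncomputable def alpha (k : ℕ) (S : Finset Plane) : ℝ≥0∞ :=
  ⨆ (T : Finset Plane) (_ : T ⊆ S) (_ : (unitGraph.induce (T : Set Plane)).Colorable k), T.card

/-- The least proportion of points of a finite set that can always be properly `k`-coloured. -/
noncomputable def ratio (k : ℕ) : ℝ≥0∞ :=
  ⨅ (S : Finset Plane) (_ : S.Nonempty), alpha k S / S.card

/-- The fractional chromatic number of the unit distance graph on `S`: the infimum of `a / b` over
the maps giving each point `b` of `a` colours, disjoint at distance one. -/
noncomputable def frac (S : Set Plane) : ℝ≥0∞ :=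
  ⨅ (a : ℕ) (b : ℕ) (_ : 0 < b) (c : Plane → Finset (Fin a)) (_ : ∀ x ∈ S, (c x).card = b)
    (_ : ∀ x ∈ S, ∀ y ∈ S, dist x y = 1 → Disjoint (c x) (c y)), (a : ℝ≥0∞) / b

end Vale.Agent.N032X
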