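import Vale.Agent.N032X.Full
import Vale.Agent.P032.R2.H125.Dens

/-! P032: the colourable proportion of finite sets is the measurable density. -/

open MeasureTheory Set Filter Topology Metric
open scoped ENNReal Classical

namespace Vale.Agent.N032X

open Vale.Agent.P032.R2.H125

theorem indep_iff {A : Set Plane} :
    unitGraph.IsIndepSet A ↔ ∀ x ∈ A, ∀ y ∈ A, dist x y ≠ 1 := by
  constructor
  · intro h x hx y hy hxy
    refine h hx hy (fun e => ?_) hxy
    rw [e] at hxy
    simp at hxy
  · intro h x hx y hy _ hxy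
    exact h x hx y hy hxy

theorem colorable_of {k : ℕ} {T : Finset Plane} (f : T → Fin k)
    (hf : ∀ x y : T, dist (x : Plane) y = 1 → f x ≠ f y) :
    (unitGraph.induce (T : Set Plane)).Colorable k :=
  ⟨SimpleGraph.Coloring.mk f fun {x y} h => hf x y h⟩

theorem le_alpha {k : ℕ} {S T : Finset Plane} (h : T ⊆ S)
    (hc : (unitGraph.induce (T : Set Plane)).Colorable k) : (T.card : ℝ≥0∞) ≤ alpha k S :=
  le_iSup_of_le T (le_iSup_of_le h (le_iSup_of_le hc le_rfl))

theorem alpha_eq (k : ℕ) (S : Finset Plane) : ∃ T ⊆ S,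
    (unitGraph.induce (T : Set Plane)).Colorable k ∧ alpha k S = T.card := by
  obtain ⟨T, hT, hm⟩ := (S.powerset.filter fun T : Finset Plane =>
    (unitGraph.induce (T : Set Plane)).Colorable k).exists_max_image Finset.card
    ⟨∅, Finset.mem_filter.2 ⟨by simp, colorable_of (fun x => absurd x.2 (Finset.notMem_empty _))
      fun x => absurd x.2 (Finset.notMem_empty _)⟩⟩
  rw [Finset.mem_filter, Finset.mem_powerset] at hT
  refine ⟨T, hT.1, hT.2, le_antisymm (iSup_le fun T' => iSup_le fun h1 => iSup_le fun h2 => ?_)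
    (le_alpha hT.1 hT.2)⟩
  exact_mod_cast hm T' (Finset.mem_filter.2 ⟨Finset.mem_powerset.2 h1, h2⟩)

theorem ratio_le {k : ℕ} {S : Finset Plane} (hS : S.Nonempty) : ratio k ≤ alpha k S / S.card :=
  iInf_le_of_le S (iInf_le_of_le hS le_rfl)

theorem ratio_le_one (k : ℕ) : ratio k ≤ 1 := by
  refine (ratio_le (S := {0}) (by simp)).trans ?_
  obtain ⟨T, hT, -, h⟩ := alpha_eq k {0}
  rw [h]
  have := Finset.card_le_card hT
  simpa using this

theorem local_family (k : ℕ) {K : Set Plane} (hK : MeasurableSet K) {N : ℕ}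
    (hKN : ∀ x ∈ K, ‖x‖ ≤ N) :
    ∃ A : Fin k → Set Plane, Family A ∧ ratio k * volume K ≤ volume ((⋃ i, A i) ∩ K) := by
  have hr : ratio k ≠ ∞ := ((ratio_le_one k).trans_lt ENNReal.one_lt_top).ne
  have hKf : volume K ≠ ∞ := by
    refine ((measure_mono (t := closedBall (0:Plane) N) fun x hx => ?_).trans_lt
      measure_closedBall_lt_top).ne
    simpa using hKN x hx
  obtain ⟨c, h1, h2, h3⟩ := transfer (k := k + 1)
    (Adj := fun p q => p = Fin.last k ∨ q = Fin.last k ∨ p ≠ q) (fun p q h => by tauto)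
    (fun p q h => by tauto) (w := fun p => if p = Fin.last k then 0 else 1)
    (fun i => by split_ifs <;> simp) (fun i => by split_ifs <;> simp)
    (fun p q hpq => by
      by_cases hp : p = Fin.last k
      · have : q = Fin.last k := le_antisymm (Fin.le_last q) (hp ▸ hpq)
        simp [hp, this]
      · simp only [hp, if_false]
        split_ifs <;> simp)
    (a := (ratio k).toReal) ENNReal.toReal_nonneg (fun S => by
      obtain ⟨T, hT, ⟨C⟩, hα⟩ := alpha_eq k S
      refine ⟨fun x => if h : x ∈ T then (C ⟨x, h⟩).castSucc else Fin.last k, ?_, ?_⟩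
      · intro x _ y _ hxy
        by_cases hx : x ∈ T
        · by_cases hy : y ∈ T
          · refine Or.inr (Or.inr ?_)
            simp only [hx, hy, dif_pos]
            exact fun e => C.valid (v := ⟨x, hx⟩) (w := ⟨y, hy⟩) hxy (Fin.castSucc_injective _ e)
          · exact Or.inr (Or.inl (dif_neg hy))
        · exact Or.inl (dif_neg hx)
      · have e1 : ∑ x ∈ S, (if (if h : x ∈ T then (C ⟨x, h⟩).castSucc else Fin.last k) =
            Fin.last k then (0:ℝ) else 1) = ∑ x ∈ S, if x ∈ T then 1 else 0 := by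
          refine Finset.sum_congr rfl fun x _ => ?_
          by_cases hx : x ∈ T
          · simp [hx]
          · simp [hx]
        rw [e1, Finset.sum_boole, Finset.filter_mem_eq_inter, Finset.inter_eq_right.2 hT]
        rcases S.eq_empty_or_nonempty with rfl | hS
        · simp
        have h4 := ratio_le (k := k) hS
        have h5 : (S.card : ℝ≥0∞) ≠ 0 := by exact_mod_cast hS.card_pos.ne'
        rw [hα, ENNReal.le_div_iff_mul_le (Or.inl h5) (Or.inl (by simp))] at h4
        have h6 := ENNReal.toReal_mono (by simp) h4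
        simpa using h6) hK hKN
  refine ⟨fun i => c ⁻¹' {i.castSucc}, fun i => ⟨h1 _, indep_iff.2 fun x hx y hy hxy => ?_⟩, ?_⟩
  · have hx' : c x = i.castSucc := hx
    have hy' : c y = i.castSucc := hy
    have := h2 x y hxy
    simp [hx', hy'] at this
  · have hU : NullMeasurableSet (⋃ i : Fin k, c ⁻¹' {i.castSucc}) volume :=
      NullMeasurableSet.iUnion fun i => h1 _
    have e1 : (fun x => if c x = Fin.last k then (0:ℝ) else 1) =
        (⋃ i : Fin k, c ⁻¹' {i.castSucc}).indicator fun _ => 1 := by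
      funext x
      rcases Fin.eq_castSucc_or_eq_last (c x) with ⟨i, hi⟩ | hi
      · rw [indicator_of_mem (mem_iUnion.2 ⟨i, hi⟩)]
        simp [hi]
      · rw [indicator_of_notMem]
        · simp [hi]
        · intro h
          obtain ⟨i, h⟩ := mem_iUnion.1 h
          exact (Fin.castSucc_lt_last i).ne ((show c x = _ from h).symm.trans hi)
    rw [e1, integral_indicator₀ (hU.mono_ac Measure.absolutelyContinuous_restrict),
      setIntegral_const, smul_eq_mul, mul_one, measureReal_def, measureReal_def,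
      Measure.restrict_apply₀ (hU.mono_ac Measure.absolutelyContinuous_restrict),
      ← ENNReal.toReal_mul] at h3
    exact (ENNReal.toReal_le_toReal (ENNReal.mul_ne_top hr hKf)
      ((measure_mono inter_subset_right).trans_lt (lt_top_iff_ne_top.2 hKf)).ne).1 h3

theorem exists_family (k : ℕ) :
    ∃ A : Fin k → Set Plane, Family A ∧ ratio k ≤ upperDensity (⋃ i, A i) := by
  let R : ℕ → ℕ := fun n => (n + 2).factorial
  have hR2 : ∀ n, 2 ≤ R n := fun n => Nat.factorial_le (show 2 ≤ n + 2 by omega)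
  have hRs : ∀ n, (R (n + 1) : ℝ) = (n + 3) * R n := fun n => by
    simp only [R]
    rw [show n + 1 + 2 = (n + 2) + 1 by ring, Nat.factorial_succ]
    push_cast
    ring
  let K : ℕ → Set Plane := fun n => ball 0 (R (n + 1)) \ ball 0 (2 * R n)
  have hK : ∀ n, MeasurableSet (K n) := fun n => measurableSet_ball.diff measurableSet_ball
  choose A hA hv using fun n => local_family k (hK n) (N := R (n + 1))
    fun x hx => (mem_ball_zero_iff.1 hx.1).le
  have hsep : ∀ n m, n < m → ∀ x ∈ K n, ∀ y ∈ K m, dist x y ≠ 1 := by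
    intro n m hnm x hx y hy h
    have h1 : ‖x‖ < R (n + 1) := mem_ball_zero_iff.1 hx.1
    have h2 : 2 * (R m : ℝ) ≤ ‖y‖ := not_lt.1 fun h => hy.2 (mem_ball_zero_iff.2 h)
    have h3 : (R (n + 1) : ℝ) ≤ R m := by
      exact_mod_cast Nat.factorial_le (show n + 1 + 2 ≤ m + 2 by omega)
    have h4 : (2 : ℝ) ≤ R m := by exact_mod_cast hR2 m
    have h5 := norm_sub_norm_le y x
    rw [← dist_eq_norm, dist_comm, h] at h5
    linarith
  refine ⟨fun i => ⋃ n, A n i ∩ K n, fun i => ⟨NullMeasurableSet.iUnion fun n =>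
    (hA n i).1.inter (hK n).nullMeasurableSet, indep_iff.2 fun x hx y hy => ?_⟩, ?_⟩
  · obtain ⟨n, hx⟩ := mem_iUnion.1 hx
    obtain ⟨m, hy⟩ := mem_iUnion.1 hy
    rcases lt_trichotomy n m with h | rfl | h
    · exact hsep n m h x hx.2 y hy.2
    · exact indep_iff.1 (hA n i).2 x hx.1 y hy.1
    · rw [dist_comm]
      exact hsep m n h y hy.2 x hx.2
  have hr : ratio k ≠ ∞ := ((ratio_le_one k).trans_lt ENNReal.one_lt_top).ne
  have hlim : Tendsto (fun n : ℕ => ratio k * ENNReal.ofReal (1 - (2 / ((n : ℝ) + 3)) ^ 2)) atTop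
      (𝓝 (ratio k)) := by
    have h1 : Tendsto (fun n : ℕ => 2 / ((n : ℝ) + 3)) atTop (𝓝 0) :=
      tendsto_const_nhds.div_atTop (tendsto_atTop_add_const_right _ _ tendsto_natCast_atTop_atTop)
    have h2 := ENNReal.Tendsto.const_mul (a := ratio k)
      (ENNReal.tendsto_ofReal ((h1.pow 2).const_sub 1)) (Or.inr hr)
    simpa using h2
  have hRt : Tendsto (fun n => (R (n + 1) : ℝ)) atTop atTop :=
    tendsto_natCast_atTop_atTop.comp (tendsto_atTop_mono
      (fun n => (show n ≤ n + 1 + 2 by omega).trans (Nat.self_le_factorial _)) tendsto_id)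
  refine le_of_forall_lt_imp_le_of_dense fun b hb => le_limsup_of_frequently_le (hRt.frequently ?_)
  refine ((hlim.eventually (lt_mem_nhds hb)).mono fun n hn => hn.le.trans ?_).frequently
  have hp : (0:ℝ) < R n := by exact_mod_cast lt_of_lt_of_le two_pos (hR2 n)
  have hn3 : (0:ℝ) < (n : ℝ) + 3 := by positivity
  have hq : 0 < Real.pi * (R (n + 1) : ℝ) ^ 2 := by rw [hRs]; positivity
  have hvK : volume (K n) = ENNReal.ofReal (1 - (2 / ((n : ℝ) + 3)) ^ 2) *
      volume (ball (0 : Plane) (R (n + 1))) := by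
    have h0 : 0 ≤ 1 - (2 / ((n : ℝ) + 3)) ^ 2 := by
      rw [sub_nonneg]
      refine pow_le_one₀ (by positivity) ?_
      rw [div_le_one hn3]
      linarith [Nat.cast_nonneg (α := ℝ) n]
    rw [measure_sdiff (ball_subset_ball (by rw [hRs]; nlinarith [Nat.cast_nonneg (α := ℝ) n]))
      measurableSet_ball.nullMeasurableSet measure_ball_lt_top.ne, vol_ball_E _ (by positivity),
      vol_ball_E _ (by positivity), ← ENNReal.ofReal_sub _ (by positivity),
      ← ENNReal.ofReal_mul h0, hRs]
    congr 1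
    field_simp
  rw [ENNReal.le_div_iff_mul_le (Or.inl (measure_ball_pos _ _ (by rw [hRs]; positivity)).ne')
    (Or.inl measure_ball_lt_top.ne), mul_assoc, ← hvK]
  refine (hv n).trans (measure_mono ?_)
  rintro x ⟨hx1, hx2⟩
  obtain ⟨i, hi⟩ := mem_iUnion.1 hx1
  exact ⟨mem_iUnion.2 ⟨i, mem_iUnion.2 ⟨n, hi, hx2⟩⟩, hx2.1⟩

theorem count_le {k : ℕ} {A : Fin k → Set Plane} (hA : Family A) (S : Finset Plane) {ρ R : ℝ}
    (hρ : ∀ x ∈ S, ‖x‖ ≤ ρ) :
    S.card * volume ((⋃ i, A i) ∩ ball 0 R) ≤ alpha k S * volume (ball (0 : Plane) (R + ρ)) := by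
  set U := (⋃ i, A i) ∩ ball 0 R with hU
  have hUm : NullMeasurableSet U volume :=
    (NullMeasurableSet.iUnion fun i => (hA i).1).inter measurableSet_ball.nullMeasurableSet
  have hY : ∀ x : Plane, NullMeasurableSet ((fun t => x + t) ⁻¹' U) volume := fun x =>
    hUm.preimage (measurePreserving_add_left volume x).quasiMeasurePreserving
  calc S.card * volume U = ∑ x ∈ S, volume ((fun t => x + t) ⁻¹' U) := by
        simp only [measure_preimage_add, Finset.sum_const, nsmul_eq_mul]
    _ = ∑ x ∈ S, ∫⁻ t, ((fun t => x + t) ⁻¹' U).indicator 1 t :=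
        Finset.sum_congr rfl fun x _ => (lintegral_indicator_one₀ (hY x)).symm
    _ = ∫⁻ t, ∑ x ∈ S, ((fun t => x + t) ⁻¹' U).indicator 1 t :=
        (lintegral_finsetSum' _ fun x _ => aemeasurable_const.indicator₀ (hY x)).symm
    _ ≤ ∫⁻ t, (ball (0 : Plane) (R + ρ)).indicator (fun _ => alpha k S) t := by
        refine lintegral_mono fun t => ?_
        have e1 : ∑ x ∈ S, ((fun t => x + t) ⁻¹' U).indicator (1 : Plane → ℝ≥0∞) t =
            ((S.filter fun x => x + t ∈ U).card : ℝ≥0∞) := by
          rw [← Finset.sum_boole]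
          exact Finset.sum_congr rfl fun x _ => by simp [indicator_apply]
        show ∑ x ∈ S, ((fun t => x + t) ⁻¹' U).indicator (1 : Plane → ℝ≥0∞) t ≤ _
        rw [e1]
        by_cases ht : t ∈ ball (0 : Plane) (R + ρ)
        · rw [indicator_of_mem ht]
          have h1 : ∀ x : (S.filter fun x => x + t ∈ U), ∃ i, (x : Plane) + t ∈ A i :=
            fun x => mem_iUnion.1 (Finset.mem_filter.1 x.2).2.1
          choose f hf using h1
          refine le_alpha (Finset.filter_subset _ _) (colorable_of f fun x y hxy e => ?_)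
          refine indep_iff.1 (hA (f x)).2 _ (hf x) _ (e ▸ hf y) ?_
          rw [dist_add_right]
          exact hxy
        · rw [indicator_of_notMem ht, Finset.filter_false_of_mem]
          · simp
          · intro x hx h
            refine ht (mem_ball_zero_iff.2 ?_)
            have h1 : ‖x + t‖ < R := mem_ball_zero_iff.1 h.2
            have h2 := norm_sub_le (x + t) x
            rw [add_sub_cancel_left] at h2
            linarith [hρ x hx]
    _ = _ := lintegral_indicator_const measurableSet_ball _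

theorem upperDensity_le {k : ℕ} {A : Fin k → Set Plane} (hA : Family A) :
    upperDensity (⋃ i, A i) ≤ ratio k := by
  refine le_iInf fun S => le_iInf fun hS => ?_
  obtain ⟨ρ, hρ, hρS⟩ : ∃ ρ : ℝ, 0 ≤ ρ ∧ ∀ x ∈ S, ‖x‖ ≤ ρ :=
    ⟨∑ x ∈ S, ‖x‖, Finset.sum_nonneg fun x _ => norm_nonneg x, fun x hx =>
      Finset.single_le_sum (f := fun x : Plane => ‖x‖) (fun y _ => norm_nonneg y) hx⟩
  have h5 : (S.card : ℝ≥0∞) ≠ 0 := by exact_mod_cast hS.card_pos.ne'
  have hfin : alpha k S / S.card ≠ ∞ := by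
    obtain ⟨T, -, -, h⟩ := alpha_eq k S
    rw [h]
    exact ENNReal.div_ne_top (by simp) h5
  have hlim : Tendsto (fun R : ℝ => alpha k S / S.card * ENNReal.ofReal ((1 + ρ / R) ^ 2)) atTop
      (𝓝 (alpha k S / S.card)) := by
    have h1 : Tendsto (fun R : ℝ => ρ / R) atTop (𝓝 0) := tendsto_const_nhds.div_atTop tendsto_id
    have h2 := ENNReal.Tendsto.const_mul (a := alpha k S / S.card)
      (ENNReal.tendsto_ofReal ((h1.const_add 1).pow 2)) (Or.inr hfin)
    simpa using h2
  rw [← hlim.limsup_eq]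
  refine limsup_le_limsup ?_
  filter_upwards [eventually_gt_atTop 0] with R hR
  have h1 := count_le hA S (R := R) hρS
  have e1 : volume (ball (0 : Plane) (R + ρ)) =
      ENNReal.ofReal ((1 + ρ / R) ^ 2) * volume (ball (0 : Plane) R) := by
    rw [vol_ball_E _ (by positivity), vol_ball_E _ hR.le, ← ENNReal.ofReal_mul (by positivity)]
    congr 1
    field_simp
  refine ENNReal.div_le_of_le_mul ?_
  rw [mul_assoc, ← e1, ENNReal.div_eq_inv_mul, mul_assoc]
  calc volume ((⋃ i, A i) ∩ ball 0 R)
      = (S.card : ℝ≥0∞)⁻¹ * (S.card * volume ((⋃ i, A i) ∩ ball 0 R)) := by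
        rw [← mul_assoc, ENNReal.inv_mul_cancel h5 (by simp), one_mul]
    _ ≤ _ := mul_le_mul_right h1 _

theorem ratio_eq_dens (k : ℕ) : ratio k = dens k := by
  obtain ⟨A, hA, h⟩ := exists_family k
  exact le_antisymm (h.trans (le_iSup_of_le A (le_iSup_of_le hA le_rfl)))
    (iSup_le fun A => iSup_le fun hA => upperDensity_le hA)

theorem dens_attained (k : ℕ) :
    ∃ A : Fin k → Set Plane, Family A ∧ upperDensity (⋃ i, A i) = dens k := by
  obtain ⟨A, hA, h⟩ := exists_family k
  exact ⟨A, hA, ratio_eq_dens k ▸ le_antisymm (upperDensity_le hA) h⟩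

theorem colorable_iff (k : ℕ) : unitGraph.Colorable k ↔ dens k = 1 := by
  rw [← ratio_eq_dens]
  constructor
  · rintro ⟨C⟩
    refine le_antisymm (ratio_le_one k) (le_iInf fun S => le_iInf fun hS => ?_)
    have h5 : (S.card : ℝ≥0∞) ≠ 0 := by exact_mod_cast hS.card_pos.ne'
    rw [ENNReal.le_div_iff_mul_le (Or.inl h5) (Or.inl (by simp)), one_mul]
    exact le_alpha subset_rfl (colorable_of (fun x => C x) fun x y h => C.valid h)
  · intro h
    have main : ∀ S : Finset Plane, S.Nonempty → ∃ c : S → Fin k,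
        ∀ x y : S, dist (x : Plane) y = 1 → c x ≠ c y := by
      intro S hS
      obtain ⟨T, hT, ⟨C⟩, hα⟩ := alpha_eq k S
      have h4 := ratio_le (k := k) hS
      have h5 : (S.card : ℝ≥0∞) ≠ 0 := by exact_mod_cast hS.card_pos.ne'
      rw [h, hα, ENNReal.le_div_iff_mul_le (Or.inl h5) (Or.inl (by simp)), one_mul] at h4
      obtain rfl := Finset.eq_of_subset_of_card_le hT (by exact_mod_cast h4)
      exact ⟨fun x => C x, fun x y h => C.valid h⟩
    obtain ⟨c, hc, -⟩ := exists_colouring (k := k) (fun x y : Plane => dist x y = 1)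
      (fun _ _ => False) fun F => by
        obtain ⟨c, hc⟩ := main (insert 0 F) (by simp)
        refine ⟨fun x => if h : x ∈ insert 0 F then c ⟨x, h⟩ else c ⟨0, by simp⟩,
          fun x hx y hy hxy => ?_, fun x _ i hi => hi.elim⟩
        simp only [Finset.mem_insert_of_mem hx, Finset.mem_insert_of_mem hy, dif_pos]
        exact hc _ _ hxy
    exact ⟨SimpleGraph.Coloring.mk c fun {x y} h => hc x y h⟩

end Vale.Agent.N032X
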