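import Vale.Agent.N032X.RC

/-! P032: discretisation of an invariant random labelling, keeping the mean weight. -/

open MeasureTheory Set Filter Topology
open scoped ENNReal Classical

namespace Vale.Agent.N032X

open Vale.Agent.P032.T Vale.Agent.P032.T.Di Vale.Agent.P032

theorem integral_fin {X T : Type} [MeasurableSpace X] (μ : Measure X) [IsFiniteMeasure μ]
    [MeasurableSpace T] [MeasurableSingletonClass T] {π : X → T} (hπ : Measurable π)
    (B : Finset T) (hB : ∀ᵐ x ∂μ, π x ∈ B) (G : T → ℝ) :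
    ∫ x, G (π x) ∂μ = ∑ m ∈ B, μ.real (π ⁻¹' {m}) * G m := by
  have h1 : ∀ᵐ x ∂μ, G (π x) = ∑ m ∈ B, (π ⁻¹' {m}).indicator (fun _ => G m) x := by
    filter_upwards [hB] with x hx
    rw [Finset.sum_eq_single (π x)]
    · rw [indicator_of_mem (by simp)]
    · intro m _ hm
      exact indicator_of_notMem (by simpa using hm.symm) _
    · intro h
      exact absurd hx h
  rw [integral_congr_ae h1, integral_finsetSum _ fun m _ =>
    (integrable_const _).indicator (hπ (measurableSet_singleton m))]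
  refine Finset.sum_congr rfl fun m _ => ?_
  rw [integral_indicator_const _ (hπ (measurableSet_singleton m)), smul_eq_mul]

theorem fl_mem (n N : ℕ) : ∃ B : Finset (ℤ × ℤ), ∀ x : ℂ, ‖x‖ ≤ (N : ℝ) + 1 → fl n x ∈ B := by
  set K : ℤ := ⌈((N : ℝ) + 1) * Real.sqrt 5 ^ n⌉ + 1 with hK
  refine ⟨Finset.Icc (-K) K ×ˢ Finset.Icc (-K) K, fun x hx => ?_⟩
  have h1 : ‖x * (2 - Complex.I) ^ n‖ ≤ ((N : ℝ) + 1) * Real.sqrt 5 ^ n := by
    rw [norm_mul, norm_pow, norm_two_sub_I]
    exact mul_le_mul_of_nonneg_right hx (by positivity)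
  have aux : ∀ r : ℝ, |r| ≤ ((N : ℝ) + 1) * Real.sqrt 5 ^ n → ⌊r⌋ ∈ Finset.Icc (-K) K := by
    intro r hr
    rw [Finset.mem_Icc]
    have h2 : ((N : ℝ) + 1) * Real.sqrt 5 ^ n ≤ (⌈((N : ℝ) + 1) * Real.sqrt 5 ^ n⌉ : ℝ) :=
      Int.le_ceil _
    have h3 := (abs_le.1 hr).1
    have h4 := (abs_le.1 hr).2
    constructor
    · rw [Int.le_floor, hK]
      push_cast
      linarith
    · have h5 : (⌊r⌋ : ℝ) ≤ K := by
        rw [hK]; push_cast
        linarith [Int.floor_le r]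
      exact_mod_cast h5
  rw [Finset.mem_product]
  exact ⟨aux _ ((Complex.abs_re_le_norm _).trans h1), aux _ ((Complex.abs_im_le_norm _).trans h1)⟩

theorem near_unit (n : ℕ) (x : ℂ) (t : ℝ) :
    ((pt n (fl n x) - pt n (fl n (x + M.e t)) : KK) : ℂ) ∈ G0 ∧
      |‖((pt n (fl n x) - pt n (fl n (x + M.e t)) : KK) : ℂ)‖ - 1| ≤ 4 / Real.sqrt 5 ^ n := by
  have h3 : ((pt n (fl n x) - pt n (fl n (x + M.e t)) : KK) : ℂ) =
      lat n (fl n x) - lat n (fl n (x + M.e t)) := rfl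
  rw [h3]
  constructor
  · refine ⟨(⟨(fl n x).1, (fl n x).2⟩ : GaussianInt) -
      ⟨(fl n (x + M.e t)).1, (fl n (x + M.e t)).2⟩, n, ?_⟩
    have hne : ((2 - Complex.I : ℂ)) ^ n ≠ 0 := pow_ne_zero n two_sub_I_ne
    unfold lat
    rw [sub_mul, div_mul_cancel₀ _ hne, div_mul_cancel₀ _ hne, map_sub]
  · have h1 := dist_lat n (x + M.e t)
    have h2 := dist_lat n x
    rw [← norm_e t, ← norm_neg (M.e t)]
    refine (abs_norm_sub_norm_le _ _).trans ?_
    have h4 : lat n (fl n x) - lat n (fl n (x + M.e t)) - -M.e t =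
        (lat n (fl n x) - x) - (lat n (fl n (x + M.e t)) - (x + M.e t)) := by ring
    rw [h4]
    refine ((norm_sub_le _ _).trans (add_le_add h2 h1)).trans (le_of_eq ?_)
    ring

theorem key {k : ℕ} {Adj : Fin k → Fin k → Prop} {w : Fin k → ℝ} {a : ℝ} (d : RData Adj w a)
    (ha : 0 ≤ a) (hw : ∀ i, w i ≤ 1) (N : ℕ) {K : Set ℂ} (hK : MeasurableSet K)
    (hKN : ∀ x ∈ K, ‖x‖ ≤ N) {ε : ℝ} (hε : 0 < ε) :
    ∃ c : ℂ → Fin k, Measurable c ∧
      (∀ s, Cls Adj s → ∫ p in box N, ind s (c p.1) * ind s (c (p.1 + M.e p.2)) ≤ ε) ∧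
      a * volume.real K - ε ≤ ∫ x in K, w (c x) := by
  have hKf : volume K ≠ ∞ := by
    refine ((measure_mono (t := Metric.closedBall (0:ℂ) N) fun x hx => ?_).trans_lt
      measure_closedBall_lt_top).ne
    simpa using hKN x hx
  have f1 : IsFiniteMeasure (volume.restrict K) := ⟨by simpa using lt_top_iff_ne_top.2 hKf⟩
  have f2 : IsFiniteMeasure (volume.restrict (box N)) :=
    ⟨by simpa using lt_top_iff_ne_top.2 (volume_box N)⟩
  set V : ℝ := volume.real (box N) with hV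
  set VK : ℝ := volume.real K with hVK
  have hV0 : 0 ≤ V := measureReal_nonneg
  have hVK0 : 0 ≤ VK := measureReal_nonneg
  set C : Finset (Finset (Fin k)) := Finset.univ.filter (Cls Adj) with hC
  set L : ℝ := (VK + ε) / ε with hL
  have hL0 : 0 < L := by positivity
  set ε' : ℝ := ε / (L * ((V + 1) * (C.card + 1))) with hε'
  have hε'0 : 0 < ε' := by positivity
  choose! δ' hδ'0 hδ' using fun s hs => d.decay s hs ε' hε'0
  obtain ⟨δ, hδ0, hδ⟩ : ∃ δ : ℝ, 0 < δ ∧ ∀ s ∈ C, δ ≤ δ' s := by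
    have h1 : ∀ᶠ δ in 𝓝[>] (0:ℝ), ∀ s ∈ C, δ ≤ δ' s := by
      rw [Filter.eventually_all_finset]
      intro s hs
      exact (eventually_le_nhds (hδ'0 s (Finset.mem_filter.1 hs).2)).filter_mono nhdsWithin_le_nhds
    obtain ⟨δ, h2, h3⟩ := (h1.and self_mem_nhdsWithin).exists
    exact ⟨δ, h3, h2⟩
  have hs51 : 1 < Real.sqrt 5 := by
    rw [show (1:ℝ) = Real.sqrt 1 by simp]
    exact Real.sqrt_lt_sqrt (by norm_num) (by norm_num)
  obtain ⟨n, hn⟩ := exists_pow_lt_of_lt_one (show 0 < δ / 4 by positivity)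
    (show (Real.sqrt 5)⁻¹ < 1 from inv_lt_one_of_one_lt₀ hs51)
  have hn' : 4 / Real.sqrt 5 ^ n < δ := by
    rw [inv_pow] at hn
    rw [div_eq_mul_inv]
    linarith
  obtain ⟨B, hB⟩ := fl_mem n N
  let π : ℂ × ℝ → (ℤ × ℤ) × (ℤ × ℤ) := fun p => (fl n p.1, fl n (p.1 + M.e p.2))
  have hπ : Measurable π := ((measurable_fl n).comp measurable_fst).prodMk
    ((measurable_fl n).comp (measurable_fst.add (measurable_e.comp measurable_snd)))
  have hπB : ∀ᵐ p ∂(volume.restrict (box N)), π p ∈ B ×ˢ B := by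
    filter_upwards [ae_restrict_mem (measurableSet_box N)] with p hp
    rw [Finset.mem_product]
    refine ⟨hB _ (by linarith [hp.1]), hB _ ?_⟩
    refine (norm_add_le _ _).trans ?_
    rw [norm_e]
    linarith [hp.1]
  have hfB : ∀ᵐ x ∂(volume.restrict K), fl n x ∈ B := by
    filter_upwards [ae_restrict_mem hK] with x hx
    exact hB _ (by linarith [hKN x hx])
  set v : (ℤ × ℤ) × (ℤ × ℤ) → ℝ := fun m => (volume.restrict (box N)).real (π ⁻¹' {m}) with hv
  set u : ℤ × ℤ → ℝ := fun m => (volume.restrict K).real (fl n ⁻¹' {m}) with hu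
  have hvs : ∑ m ∈ B ×ˢ B, v m = V := by
    have := integral_fin _ hπ _ hπB fun _ => 1
    simpa [hv, hV] using this.symm
  have hus : ∑ m ∈ B, u m = VK := by
    have := integral_fin _ (measurable_fl n) _ hfB fun _ => 1
    simpa [hu, hVK] using this.symm
  let W1 : Finset (Fin k) → (ℕ × KK) × UA → ℝ := fun s p =>
    ∑ m ∈ B ×ˢ B, v m * (ind s (d.c p (pt n m.1)) * ind s (d.c p (pt n m.2)))
  have hb1 : ∀ s (x y : KK), Bdd fun p => ind s (d.c p x) * ind s (d.c p y) :=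
    fun s x y => ⟨1, fun p => ind_mul_abs s _ _⟩
  have hW1 := fun s => d.mean.sum (B ×ˢ B)
    (fun m p => v m * (ind s (d.c p (pt n m.1)) * ind s (d.c p (pt n m.2))))
    fun m => bdd_smul _ (hb1 s _ _)
  have hW1n : ∀ s p, 0 ≤ W1 s p := fun s p => Finset.sum_nonneg fun m _ =>
    mul_nonneg measureReal_nonneg (mul_nonneg (ind_nonneg _ _) (ind_nonneg _ _))
  have hW1E : ∀ s ∈ C, d.E (W1 s) ≤ V * ε' := by
    intro s hs
    rw [(hW1 s).2, ← hvs, Finset.sum_mul]
    refine Finset.sum_le_sum fun m _ => ?_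
    rw [d.mean.smul _ _ (hb1 s _ _), d.corr]
    by_cases he : (π ⁻¹' {m}).Nonempty
    · refine mul_le_mul_of_nonneg_left ?_ measureReal_nonneg
      obtain ⟨p, hp⟩ := he
      have hp' : π p = m := hp
      have h1 := near_unit n p.1 p.2
      rw [← hp']
      exact (le_abs_self _).trans (hδ' s (Finset.mem_filter.1 hs).2 _ h1.1
        (h1.2.trans_lt (hn'.trans_le (hδ s hs)))).le
    · have h0 : v m = 0 := by
        simp only [hv]
        rw [Set.not_nonempty_iff_eq_empty.1 he]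
        simp
      rw [h0]
      simp
  have hW := d.mean.sum C W1 fun s => (hW1 s).1
  have hwb : ∀ x : KK, Bdd fun p => w (d.c p x) := fun x =>
    ⟨∑ i, |w i|, fun p => Finset.single_le_sum (f := fun i => |w i|)
      (fun i _ => abs_nonneg _) (Finset.mem_univ _)⟩
  have hD := d.mean.sum B (fun m p => u m * w (d.c p (pt n m))) fun m => bdd_smul _ (hwb _)
  have hDE : a * VK ≤ d.E (fun p => ∑ m ∈ B, u m * w (d.c p (pt n m))) := by
    rw [hD.2, ← hus, Finset.mul_sum]
    refine Finset.sum_le_sum fun m _ => ?_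
    rw [d.mean.smul _ _ (hwb _), mul_comm]
    exact mul_le_mul_of_nonneg_left (d.dens _) measureReal_nonneg
  have hWE : L * d.E (fun p => ∑ s ∈ C, W1 s p) < ε := by
    rw [hW.2]
    have h1 : ∑ s ∈ C, d.E (W1 s) ≤ C.card * (V * ε') := by
      refine (Finset.sum_le_sum hW1E).trans ?_
      rw [Finset.sum_const, nsmul_eq_mul]
    refine (mul_le_mul_of_nonneg_left h1 hL0.le).trans_lt ?_
    have h2 : L * (C.card * (V * ε')) = ε * (V * C.card) / ((V + 1) * (C.card + 1)) := by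
      rw [hε']
      field_simp
    have hc : (0:ℝ) ≤ C.card := by positivity
    rw [h2, div_lt_iff₀ (by positivity)]
    nlinarith [mul_nonneg hV0 hc]
  obtain ⟨p, hp⟩ := d.mean.exists_lt (r := ε - a * VK)
    (bdd_add (bdd_smul L hW.1) (bdd_smul (-1) hD.1)) (by
      rw [d.mean.add _ _ (bdd_smul L hW.1) (bdd_smul (-1) hD.1), d.mean.smul _ _ hW.1,
        d.mean.smul _ _ hD.1]
      linarith)
  have hWp : 0 ≤ ∑ s ∈ C, W1 s p := Finset.sum_nonneg fun s _ => hW1n s p
  have hDp : ∑ m ∈ B, u m * w (d.c p (pt n m)) ≤ VK := by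
    rw [← hus]
    exact Finset.sum_le_sum fun m _ => mul_le_of_le_one_right measureReal_nonneg (hw _)
  have hm : Measurable (fun m : ℤ × ℤ => d.c p (pt n m)) := measurable_of_countable _
  refine ⟨fun x => d.c p (pt n (fl n x)), hm.comp (measurable_fl n), fun s hs => ?_, ?_⟩
  · have h1 := integral_fin _ hπ _ hπB
      fun m => ind s (d.c p (pt n m.1)) * ind s (d.c p (pt n m.2))
    refine (le_of_eq h1).trans ?_
    have h2 : W1 s p ≤ ∑ s ∈ C, W1 s p := Finset.single_le_sum (f := fun s => W1 s p)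
      (fun s _ => hW1n s p) (Finset.mem_filter.2 ⟨Finset.mem_univ _, hs⟩)
    have h3 : L * ∑ s ∈ C, W1 s p ≤ L * ε := by
      have : L * ε = VK + ε := by rw [hL]; field_simp
      nlinarith [mul_nonneg ha hVK0]
    exact h2.trans (le_of_mul_le_mul_left h3 hL0)
  · have h1 := integral_fin _ (measurable_fl n) _ hfB fun m => w (d.c p (pt n m))
    refine le_of_le_of_eq ?_ h1.symm
    nlinarith [mul_nonneg hL0.le hWp]

end Vale.Agent.N032X
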