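import Vale.Agent.P032.T.Corr

/-! P032: almost invariant finite sets and the means they define. -/

open Set Filter Topology
open scoped Classical

namespace Vale.Agent.N032X

open Vale.Agent.P032.T

theorem exists_box {H : Type} [AddCommGroup H] (n : ℕ) (e : Fin n → H) {ε : ℝ} (hε : 0 < ε) :
    ∃ F : Finset H, F.Nonempty ∧
      ∀ i, ((F.filter fun b => b + e i ∉ F).card : ℝ) ≤ ε * F.card := by
  let box : ℕ → Finset H := fun N =>
    (Fintype.piFinset fun _ : Fin n => Finset.range (N + 1)).image fun k => ∑ i, k i • e i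
  have hne : ∀ N, (box N).Nonempty := fun N =>
    ⟨_, Finset.mem_image.2 ⟨fun _ => 0, by simp, rfl⟩⟩
  have hcard : ∀ N, (box N).card ≤ (N + 1) ^ n := fun N =>
    Finset.card_image_le.trans (by simp)
  have hsub : ∀ N, box N ⊆ box (N + 1) := by
    intro N b hb
    obtain ⟨k, hk, rfl⟩ := Finset.mem_image.1 hb
    refine Finset.mem_image.2 ⟨k, ?_, rfl⟩
    simp only [Fintype.mem_piFinset, Finset.mem_range] at hk ⊢
    exact fun i => (hk i).trans (by omega)
  have hstep : ∀ N i, ∀ b ∈ box N, b + e i ∈ box (N + 1) := by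
    intro N i b hb
    obtain ⟨k, hk, rfl⟩ := Finset.mem_image.1 hb
    refine Finset.mem_image.2 ⟨fun j => k j + if j = i then 1 else 0, ?_, ?_⟩
    · simp only [Fintype.mem_piFinset, Finset.mem_range] at hk ⊢
      intro j
      have := hk j
      split_ifs <;> omega
    · simp only [add_smul, Finset.sum_add_distrib, ite_smul, one_smul, zero_smul,
        Finset.sum_ite_eq', Finset.mem_univ, if_true]
  obtain ⟨N, hN⟩ : ∃ N, ((box (N + 1)).card : ℝ) ≤ (1 + ε) * (box N).card := by
    by_contra h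
    push Not at h
    have h1 : ∀ N, (1 + ε) ^ N ≤ ((box N).card : ℝ) := by
      intro N
      induction N with
      | zero =>
        rw [pow_zero]
        exact_mod_cast (hne 0).card_pos
      | succ N ih =>
        rw [pow_succ']
        exact (mul_le_mul_of_nonneg_left ih (by positivity)).trans (h N).le
    have h2 := (tendsto_pow_const_div_const_pow_of_one_lt n (r := 1 + ε) (by linarith)).comp
      (tendsto_add_atTop_nat 1)
    obtain ⟨N, hN⟩ := (h2.eventually (gt_mem_nhds (show (0:ℝ) < 1 / (1 + ε) by positivity))).exists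
    simp only [Function.comp] at hN
    rw [div_lt_div_iff₀ (by positivity) (by positivity), one_mul, pow_succ (1 + ε)] at hN
    have h3 : (((N + 1 : ℕ) : ℝ)) ^ n < (1 + ε) ^ N := lt_of_mul_lt_mul_right hN (by positivity)
    have h4 : ((box N).card : ℝ) ≤ ((N + 1 : ℕ) : ℝ) ^ n := by exact_mod_cast hcard N
    linarith [h1 N]
  refine ⟨box N, hne N, fun i => ?_⟩
  have h1 : ((box N).filter fun b => b + e i ∉ box N).card ≤ (box (N + 1) \ box N).card := by
    refine Finset.card_le_card_of_injOn (fun b => b + e i) ?_ ?_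
    · intro b hb
      rw [Finset.mem_coe, Finset.mem_filter] at hb
      exact Finset.mem_coe.2 (Finset.mem_sdiff.2 ⟨hstep N i b hb.1, hb.2⟩)
    · intro b _ c _ h
      exact add_right_cancel h
  have h2 : ((box (N + 1) \ box N).card : ℝ) = (box (N + 1)).card - (box N).card := by
    rw [Finset.card_sdiff_of_subset (hsub N), Nat.cast_sub (Finset.card_le_card (hsub N))]
  have h3 : (((box N).filter fun b => b + e i ∉ box N).card : ℝ) ≤
      (box (N + 1) \ box N).card := by exact_mod_cast h1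
  linarith

theorem foelner (H : Type) [AddCommGroup H] [Countable H] :
    ∃ F : ℕ → Finset H, (∀ n, (F n).Nonempty) ∧ ∀ g, Tendsto
      (fun n => (((F n).filter fun b => b + g ∉ F n).card : ℝ) / (F n).card) atTop (𝓝 0) := by
  obtain ⟨e, he⟩ := exists_surjective_nat H
  choose F hF hb using fun n : ℕ => exists_box n (fun i : Fin n => e i)
    (show (0:ℝ) < 1 / ((n : ℝ) + 1) by positivity)
  refine ⟨F, hF, fun g => ?_⟩
  obtain ⟨i, rfl⟩ := he g
  refine squeeze_zero' (Eventually.of_forall fun n => by positivity) ?_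
    (tendsto_one_div_add_atTop_nhds_zero_nat (𝕜 := ℝ))
  filter_upwards [eventually_gt_atTop i] with n hn
  have h1 : (0:ℝ) < (F n).card := by exact_mod_cast (hF n).card_pos
  rw [div_le_iff₀ h1]
  exact hb n ⟨i, hn⟩

/-- means on bounded functions -/
structure IsMean {Ω : Type} (E : (Ω → ℝ) → ℝ) : Prop where
  add : ∀ g h, Bdd g → Bdd h → E (fun p => g p + h p) = E g + E h
  smul : ∀ (r : ℝ) g, Bdd g → E (fun p => r * g p) = r * E g
  nonneg : ∀ g, Bdd g → (∀ p, 0 ≤ g p) → 0 ≤ E g
  one : E (fun _ => 1) = 1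

theorem bdd_add {Ω : Type} {g h : Ω → ℝ} (hg : Bdd g) (hh : Bdd h) : Bdd fun p => g p + h p := by
  obtain ⟨C, hC⟩ := hg
  obtain ⟨D, hD⟩ := hh
  exact ⟨C + D, fun p => (abs_add_le _ _).trans (add_le_add (hC p) (hD p))⟩

theorem bdd_smul {Ω : Type} (r : ℝ) {g : Ω → ℝ} (hg : Bdd g) : Bdd fun p => r * g p := by
  obtain ⟨C, hC⟩ := hg
  exact ⟨|r| * C, fun p => by rw [abs_mul]; exact mul_le_mul_of_nonneg_left (hC p) (abs_nonneg _)⟩

theorem bdd_const {Ω : Type} (r : ℝ) : Bdd fun _ : Ω => r := ⟨|r|, fun _ => le_rfl⟩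

namespace IsMean

variable {Ω : Type} {E : (Ω → ℝ) → ℝ} (h : IsMean E)
include h

theorem const (r : ℝ) : E (fun _ => r) = r := by
  have := h.smul r _ (bdd_const 1)
  simpa [h.one] using this

theorem sum {ι : Type} (s : Finset ι) (F : ι → Ω → ℝ) (hF : ∀ a, Bdd (F a)) :
    Bdd (fun p => ∑ a ∈ s, F a p) ∧ E (fun p => ∑ a ∈ s, F a p) = ∑ a ∈ s, E (F a) := by
  induction s using Finset.induction_on with
  | empty =>
    simp only [Finset.sum_empty]
    exact ⟨bdd_const 0, h.const 0⟩
  | insert a s ha ih =>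
    simp only [Finset.sum_insert ha]
    exact ⟨bdd_add (hF a) ih.1, by rw [h.add _ _ (hF a) ih.1, ih.2]⟩

theorem ge {g : Ω → ℝ} (hg : Bdd g) {r : ℝ} (hr : ∀ p, r ≤ g p) : r ≤ E g := by
  have h1 := h.nonneg _ (bdd_add hg (bdd_const (-r))) fun p => by linarith [hr p]
  rw [h.add _ _ hg (bdd_const _), h.const] at h1
  linarith

theorem exists_lt {g : Ω → ℝ} (hg : Bdd g) {r : ℝ} (hr : E g < r) : ∃ p, g p < r := by
  by_contra hc
  push Not at hc
  exact absurd (h.ge hg hc) (not_le.2 hr)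

theorem abs_le {g : Ω → ℝ} {C : ℝ} (hg : ∀ p, |g p| ≤ C) : |E g| ≤ C :=
  mean_abs_le E h.add h.smul h.nonneg h.one g C hg

end IsMean

theorem mean1 (H : Type) [AddCommGroup H] [Countable H] :
    ∃ (F : ℕ → Finset H) (M : (ℕ × H → ℝ) → ℝ), IsMean M ∧
      (∀ φ g, Bdd φ → M (fun p => φ (p.1, p.2 + g)) = M φ) ∧
      (∀ φ g h, Bdd φ → (∀ n b, b + g ∈ F n → b + h ∈ F n → φ (n, b) = 0) → M φ = 0) ∧
      ∀ φ (a : ℝ), Bdd φ → (∀ n, a * (F n).card ≤ ∑ b ∈ F n, φ (n, b)) → a ≤ M φ := by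
  obtain ⟨F, hF, hfo⟩ := foelner H
  have hpos : ∀ n, (0:ℝ) < (F n).card := fun n => by exact_mod_cast (hF n).card_pos
  let A : ℕ → (ℕ × H → ℝ) → ℝ := fun n φ => (∑ b ∈ F n, φ (n, b)) / (F n).card
  let U : Ultrafilter ℕ := hyperfilter ℕ
  have hU : (U : Filter ℕ) ≤ atTop := by
    rw [← Nat.cofinite_eq_atTop]
    exact hyperfilter_le_cofinite
  let M : (ℕ × H → ℝ) → ℝ := fun φ => limUnder (U : Filter ℕ) (fun n => A n φ)
  have hlim : ∀ φ, Bdd φ → Tendsto (fun n => A n φ) U (𝓝 (M φ)) := by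
    rintro φ ⟨C, hC⟩
    have hmem : (Icc (-C) C) ∈ U.map (fun n => A n φ) := by
      refine Ultrafilter.mem_map.2 (Filter.univ_mem' fun n => ?_)
      refine _root_.abs_le.1 ?_
      show |(∑ b ∈ F n, φ (n, b)) / (F n).card| ≤ C
      rw [abs_div, abs_of_pos (hpos n), div_le_iff₀ (hpos n)]
      refine (Finset.abs_sum_le_sum_abs _ _).trans ?_
      refine (Finset.sum_le_sum fun b _ => hC (n, b)).trans ?_
      rw [Finset.sum_const, nsmul_eq_mul, mul_comm]
    obtain ⟨x, -, hx⟩ := isCompact_Icc.ultrafilter_le_nhds _ (le_principal_iff.2 hmem)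
    have : Tendsto (fun n => A n φ) U (𝓝 x) := hx
    exact tendsto_nhds_limUnder ⟨x, this⟩
  have huniq : ∀ φ, Bdd φ → ∀ x, Tendsto (fun n => A n φ) U (𝓝 x) → M φ = x :=
    fun φ hφ x hx => tendsto_nhds_unique (hlim φ hφ) hx
  have hzero : ∀ φ g h, Bdd φ → (∀ n b, b + g ∈ F n → b + h ∈ F n → φ (n, b) = 0) →
      Tendsto (fun n => A n φ) U (𝓝 0) := by
    rintro φ g h ⟨C, hC⟩ hφ
    have h0 := (((hfo g).add (hfo h)).const_mul C).mono_left hU
    rw [add_zero, mul_zero] at h0
    refine squeeze_zero_norm (fun n => ?_) h0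
    show |(∑ b ∈ F n, φ (n, b)) / (F n).card| ≤ _
    rw [abs_div, abs_of_pos (hpos n), ← add_div, ← mul_div_assoc]
    refine div_le_div_of_nonneg_right ?_ (hpos n).le
    refine (Finset.abs_sum_le_sum_abs _ _).trans ?_
    have hC0 : 0 ≤ C := (abs_nonneg _).trans (hC (0, 0))
    calc ∑ b ∈ F n, |φ (n, b)| ≤ ∑ b ∈ F n, ((if b + g ∉ F n then C else 0) +
          (if b + h ∉ F n then C else 0)) := by
          refine Finset.sum_le_sum fun b _ => ?_
          by_cases h1 : b + g ∈ F n <;> by_cases h2 : b + h ∈ F n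
          · simp [hφ n b h1 h2, h1, h2]
          · simpa [h1, h2] using hC (n, b)
          · simpa [h1, h2] using hC (n, b)
          · simp only [h1, h2, not_false_eq_true, if_true]
            linarith [hC (n, b)]
      _ = _ := by
          rw [Finset.sum_add_distrib, ← Finset.sum_filter, ← Finset.sum_filter, Finset.sum_const,
            Finset.sum_const, nsmul_eq_mul, nsmul_eq_mul]
          ring
  refine ⟨F, M, ⟨?_, ?_, ?_, ?_⟩, ?_, ?_, ?_⟩
  · intro f g hf hg
    refine huniq _ (bdd_add hf hg) _ (((hlim f hf).add (hlim g hg)).congr fun n => ?_)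
    simp only [A]
    rw [Finset.sum_add_distrib, add_div]
  · intro r f hf
    refine huniq _ (bdd_smul r hf) _ (((hlim f hf).const_mul r).congr fun n => ?_)
    simp only [A]
    rw [← Finset.mul_sum, mul_div_assoc]
  · intro f hf h0
    exact ge_of_tendsto' (hlim f hf) fun n =>
      div_nonneg (Finset.sum_nonneg fun b _ => h0 _) (hpos n).le
  · refine huniq _ (bdd_const 1) _ (tendsto_const_nhds.congr fun n => ?_)
    simp only [A]
    rw [Finset.sum_const, nsmul_eq_mul, mul_one, div_self (hpos n).ne']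
  · intro φ g hφ
    obtain ⟨C, hC⟩ := hφ
    let ψ : ℕ × H → ℝ := fun p => if p.2 + g ∈ F p.1 then 0 else φ (p.1, p.2 + g)
    let χ : ℕ × H → ℝ := fun p => if p.2 + -g ∈ F p.1 then 0 else φ p
    have hC0 : 0 ≤ C := (abs_nonneg _).trans (hC (0, 0))
    have hψ : Bdd ψ := ⟨C, fun p => by
      simp only [ψ]
      split_ifs
      · simpa using hC0
      · exact hC _⟩
    have hχ : Bdd χ := ⟨C, fun p => by
      simp only [χ]
      split_ifs
      · simpa using hC0
      · exact hC _⟩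
    have h1 := hzero ψ g g hψ fun n b hb _ => by simp [ψ, hb]
    have h2 := hzero χ (-g) (-g) hχ fun n b hb _ => by
      simp only [χ]
      rw [if_pos hb]
    have h3 := (h1.sub h2).add (hlim φ ⟨C, hC⟩)
    rw [sub_zero, zero_add] at h3
    have hb' : Bdd fun p : ℕ × H => φ (p.1, p.2 + g) := ⟨C, fun p => hC _⟩
    refine huniq _ hb' _ (h3.congr fun n => ?_)
    show (∑ b ∈ F n, ψ (n, b)) / (F n).card - (∑ b ∈ F n, χ (n, b)) / (F n).card +
      (∑ b ∈ F n, φ (n, b)) / (F n).card = (∑ b ∈ F n, φ (n, b + g)) / (F n).card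
    rw [← sub_div, ← add_div]
    congr 1
    have e1 : ∑ b ∈ F n, φ (n, b + g) = ∑ b ∈ F n, ψ (n, b) +
        ∑ b ∈ (F n).filter (fun b => b + g ∈ F n), φ (n, b + g) := by
      rw [Finset.sum_filter, ← Finset.sum_add_distrib]
      refine Finset.sum_congr rfl fun b _ => ?_
      simp only [ψ]
      split_ifs <;> simp
    have e2 : ∑ b ∈ F n, φ (n, b) = ∑ b ∈ F n, χ (n, b) +
        ∑ b ∈ (F n).filter (fun b => b + -g ∈ F n), φ (n, b) := by
      rw [Finset.sum_filter, ← Finset.sum_add_distrib]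
      refine Finset.sum_congr rfl fun b _ => ?_
      simp only [χ]
      split_ifs <;> simp
    have e3 : ∑ b ∈ (F n).filter (fun b => b + g ∈ F n), φ (n, b + g) =
        ∑ b ∈ (F n).filter (fun b => b + -g ∈ F n), φ (n, b) := by
      refine Finset.sum_bij' (fun b _ => b + g) (fun b _ => b + -g) ?_ ?_ ?_ ?_ ?_
      · intro b hb
        rw [Finset.mem_filter] at hb ⊢
        exact ⟨hb.2, by simpa using hb.1⟩
      · intro b hb
        rw [Finset.mem_filter] at hb ⊢
        exact ⟨hb.2, by simpa using hb.1⟩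
      · intro b _
        simp
      · intro b _
        simp
      · intro b _
        rfl
    rw [e1, e2, e3]
    ring
  · intro φ g h hφ h0
    exact huniq _ hφ _ (hzero φ g h hφ h0)
  · intro φ a hφ ha
    exact ge_of_tendsto' (hlim φ hφ) fun n => (le_div_iff₀ (hpos n)).2 (ha n)

end Vale.Agent.N032X
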