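import Vale.Agent.N032X.Dens

/-! P032: the fractional chromatic number of the plane. -/

open MeasureTheory Set Filter Topology Metric
open scoped ENNReal Classical

namespace Vale.Agent.N032X

theorem vol_box (a b : Fin 2 → ℝ) :
    volume {x : Plane | ∀ i, x i ∈ Ico (a i) (b i)} = ∏ i, ENNReal.ofReal (b i - a i) := by
  rw [← Real.volume_pi_Ico, ← (PiLp.volume_preserving_ofLp (Fin 2)).measure_preimage
    (MeasurableSet.univ_pi fun i => measurableSet_Ico).nullMeasurableSet]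
  congr 1
  ext x
  simp

theorem vol_cball (x : Plane) {r : ℝ} (hr : 0 ≤ r) :
    volume.real (closedBall x r) = Real.pi * r ^ 2 := by
  rw [measureReal_def, EuclideanSpace.volume_closedBall_fin_two]
  simp [ENNReal.toReal_ofReal hr, Real.pi_pos.le, mul_comm]

/-- the grid cell of a point -/
noncomputable def cl (q : ℕ) (x : Plane) : Fin 2 → ℤ := fun i => ⌊(q : ℝ) * x i⌋

theorem vol_cell {q : ℕ} (hq : 0 < q) (m : Fin 2 → ℤ) :
    volume {x : Plane | cl q x = m} ≤ ENNReal.ofReal (1 / (q : ℝ) ^ 2) := by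
  have hq' : (0:ℝ) < q := by exact_mod_cast hq
  refine (measure_mono (t := {x : Plane | ∀ i, x i ∈ Ico (m i / (q : ℝ)) ((m i + 1) / (q : ℝ))})
    fun x hx i => ?_).trans (le_of_eq ?_)
  · have h := Int.floor_eq_iff.1 (congrFun hx i)
    rw [mem_Ico, div_le_iff₀ hq', lt_div_iff₀ hq']
    constructor <;> linarith [h.1, h.2]
  · rw [vol_box, Fin.prod_univ_two, ← ENNReal.ofReal_mul (by
      rw [← sub_div]; exact div_nonneg (by linarith) hq'.le)]
    congr 1
    field_simp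
    ring

theorem gap {A : Set Plane} (hA : ∀ x ∈ A, ∀ y ∈ A, dist x y ≠ 1) {r : ℝ} (hr : 0 < r)
    {z₁ z₂ v : Plane} (hv : ‖v‖ = 1) (hz : ‖z₁ - z₂ - v‖ ≤ r / 2)
    (h₁ : volume.real (closedBall z₁ r \ A) ≤ Real.pi * r ^ 2 / 10)
    (h₂ : volume.real (closedBall z₂ r \ A) ≤ Real.pi * r ^ 2 / 10) : False := by
  have hf : ∀ z u : Plane, volume ((fun t => u + t) ⁻¹' (closedBall z r \ A)) ≠ ∞ := fun z u => by
    rw [measure_preimage_add]
    exact ((measure_mono sdiff_subset).trans_lt measure_closedBall_lt_top).ne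
  have hsub : closedBall (0 : Plane) (r / 2) ⊆ (fun t => z₁ + t) ⁻¹' (closedBall z₁ r \ A) ∪
      (fun t => (z₁ - v) + t) ⁻¹' (closedBall z₂ r \ A) := by
    intro t ht
    rw [mem_closedBall_zero_iff] at ht
    by_cases h : z₁ + t ∈ A
    · refine Or.inr ⟨?_, fun h' => hA _ h _ h' ?_⟩
      · rw [mem_closedBall, dist_eq_norm, show z₁ - v + t - z₂ = (z₁ - z₂ - v) + t by abel]
        linarith [norm_add_le (z₁ - z₂ - v) t]
      · rw [dist_eq_norm, show z₁ + t - (z₁ - v + t) = v by abel, hv]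
    · refine Or.inl ⟨?_, h⟩
      rw [mem_closedBall, dist_eq_norm, add_sub_cancel_left]
      linarith
  have h3 := (measureReal_mono hsub (measure_union_ne_top (hf _ _) (hf _ _))).trans
    (measureReal_union_le _ _)
  rw [vol_cball _ (by positivity)] at h3
  simp only [measureReal_def, measure_preimage_add] at h3 h₁ h₂
  have : 0 < Real.pi * r ^ 2 := by positivity
  nlinarith

theorem exists_scale {A K : Set Plane} (hA : NullMeasurableSet A volume) {β : ℝ≥0∞}
    (hβ : β < volume (A ∩ K)) : ∃ n : ℕ, β < volume {x | x ∈ K ∧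
      volume.real (closedBall x (1 / ((n : ℝ) + 1)) \ A) ≤
        Real.pi * (1 / ((n : ℝ) + 1)) ^ 2 / 10} := by
  let G : ℕ → Set Plane := fun n => {x | x ∈ K ∧ ∀ m ≥ n,
    volume.real (closedBall x (1 / ((m : ℝ) + 1)) \ A) ≤ Real.pi * (1 / ((m : ℝ) + 1)) ^ 2 / 10}
  have hG : Monotone G := fun n m h x hx => ⟨hx.1, fun l hl => hx.2 l (h.trans hl)⟩
  have h1 : volume (A ∩ K) ≤ volume (⋃ n, G n) := by
    refine measure_mono_ae ?_
    have h2 := (ae_restrict_iff'₀ hA).1 (Besicovitch.ae_tendsto_measure_inter_div volume A)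
    filter_upwards [h2] with x hx hxA
    have h3 : Tendsto (fun m : ℕ => 1 / ((m : ℝ) + 1)) atTop (𝓝[>] 0) :=
      tendsto_nhdsWithin_iff.2 ⟨tendsto_one_div_add_atTop_nhds_zero_nat,
        Eventually.of_forall fun m => by show 0 < 1 / ((m : ℝ) + 1); positivity⟩
    have h4 := ((hx hxA.1).comp h3).eventually (lt_mem_nhds
      (show ENNReal.ofReal (9 / 10) < 1 by rw [ENNReal.ofReal_lt_one]; norm_num))
    obtain ⟨n, hn⟩ := eventually_atTop.1 h4
    refine mem_iUnion.2 ⟨n, hxA.2, fun m hm => ?_⟩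
    have hr : 0 < 1 / ((m : ℝ) + 1) := by positivity
    have h5 := (hn m hm).le
    simp only [Function.comp] at h5
    rw [ENNReal.le_div_iff_mul_le (Or.inl (measure_closedBall_pos _ _ hr).ne')
      (Or.inl measure_closedBall_lt_top.ne)] at h5
    have h6 := ENNReal.toReal_mono
      ((measure_mono inter_subset_right).trans_lt measure_closedBall_lt_top).ne h5
    have h7 := measureReal_inter_add_sdiff₀ (μ := volume) (s := closedBall x (1 / ((m : ℝ) + 1)))
      hA measure_closedBall_lt_top.ne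
    rw [ENNReal.toReal_mul, ENNReal.toReal_ofReal (by norm_num), ← measureReal_def,
      ← measureReal_def, vol_cball _ hr.le, inter_comm] at h6
    rw [vol_cball _ hr.le] at h7
    linarith
  rw [hG.measure_iUnion] at h1
  obtain ⟨n, hn⟩ := lt_iSup_iff.1 (hβ.trans_le h1)
  exact ⟨n, hn.trans_le (measure_mono fun x hx => ⟨hx.1, hx.2 n le_rfl⟩)⟩

theorem frac_le_of {S : Set Plane} {T : Type} [Fintype T] {b : ℕ} (hb : 0 < b)
    (c : Plane → Finset T) (h1 : ∀ x ∈ S, (c x).card = b)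
    (h2 : ∀ x ∈ S, ∀ y ∈ S, dist x y = 1 → Disjoint (c x) (c y)) :
    frac S ≤ (Fintype.card T : ℝ≥0∞) / b :=
  iInf_le_of_le _ (iInf_le_of_le b (iInf_le_of_le hb (iInf_le_of_le
    (fun x => (c x).map (Fintype.equivFin T).toEmbedding) (iInf_le_of_le
      (fun x hx => by rw [Finset.card_map, h1 x hx]) (iInf_le_of_le
        (fun x hx y hy h => (Finset.disjoint_map _).2 (h2 x hx y hy h)) le_rfl)))))

theorem cl_close {q : ℕ} (hq : 0 < q) {z₁ z₂ x y : Plane}
    (h : ∀ i, cl q z₁ i - cl q z₂ i = cl q x i - cl q y i) : ‖z₁ - z₂ - (x - y)‖ ≤ 3 / q := by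
  have hq' : (0:ℝ) < q := by exact_mod_cast hq
  have hc : ∀ i, ((q : ℝ) * (z₁ - z₂ - (x - y)) i) ^ 2 ≤ 2 ^ 2 := fun i => by
    have h0 : ((⌊(q : ℝ) * z₁ i⌋ : ℤ) : ℝ) - ⌊(q : ℝ) * z₂ i⌋ = ⌊(q : ℝ) * x i⌋ - ⌊(q : ℝ) * y i⌋ := by
      exact_mod_cast h i
    refine sq_le_sq' ?_ ?_ <;> simp only [PiLp.sub_apply] <;>
    linarith [Int.floor_le ((q : ℝ) * z₁ i), Int.lt_floor_add_one ((q : ℝ) * z₁ i),
      Int.floor_le ((q : ℝ) * z₂ i), Int.lt_floor_add_one ((q : ℝ) * z₂ i),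
      Int.floor_le ((q : ℝ) * x i), Int.lt_floor_add_one ((q : ℝ) * x i),
      Int.floor_le ((q : ℝ) * y i), Int.lt_floor_add_one ((q : ℝ) * y i)]
  rw [le_div_iff₀ hq']
  refine le_of_sq_le_sq ?_ (by norm_num)
  rw [mul_pow, EuclideanSpace.real_norm_sq_eq, Fin.sum_univ_two]
  nlinarith [hc 0, hc 1]

theorem cl_near {q : ℕ} {x y : Plane} (h : dist x y = 1) (i : Fin 2) :
    |cl q x i - cl q y i| ≤ q := by
  have h1 : |x i - y i| ≤ 1 := by
    rw [← Real.dist_eq, ← h]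
    exact PiLp.dist_apply_le x y i
  have hq : (0:ℝ) ≤ q := Nat.cast_nonneg q
  have h2 := abs_le.1 h1
  have h3 := mul_le_mul_of_nonneg_left h2.1 hq
  have h4 := mul_le_mul_of_nonneg_left h2.2 hq
  have h5 : |((⌊(q : ℝ) * x i⌋ : ℤ) : ℝ) - ⌊(q : ℝ) * y i⌋| < q + 1 := by
    rw [abs_lt]
    constructor <;> linarith [Int.floor_le ((q : ℝ) * x i), Int.lt_floor_add_one ((q : ℝ) * x i),
      Int.floor_le ((q : ℝ) * y i), Int.lt_floor_add_one ((q : ℝ) * y i)]
  have h6 : |cl q x i - cl q y i| < q + 1 := by exact_mod_cast h5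
  omega

theorem torus {q L : ℕ} (hq : 0 < q) {Γ : Finset (Fin 2 → ℤ)} (hΓ : Γ.Nonempty)
    (hb : ∀ γ ∈ Γ, ∀ i, 0 ≤ γ i ∧ γ i < q * L)
    (hs : ∀ γ ∈ Γ, ∀ δ ∈ Γ, ∀ x y : Plane, dist x y = 1 →
      ¬ ∀ i, γ i - δ i = cl q x i - cl q y i) :
    frac univ ≤ ((q * (L + 2)) ^ 2 : ℕ) / (Γ.card : ℝ≥0∞) := by
  have : NeZero (q * (L + 2)) := ⟨by positivity⟩
  have hq' : (0:ℤ) < q := by exact_mod_cast hq
  have key : ∀ u v : ℤ, (u : ZMod (q * (L + 2))) = v → |v - u| < q * (L + 2) → v = u :=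
    fun u v h h' => sub_eq_zero.1 (Int.eq_zero_of_abs_lt_dvd
      ((ZMod.intCast_eq_intCast_iff_dvd_sub u v _).1 h) (by exact_mod_cast h'))
  refine (frac_le_of (T := Fin 2 → ZMod (q * (L + 2))) hΓ.card_pos
    (fun x => Γ.image fun γ i => ((γ i - cl q x i : ℤ) : ZMod (q * (L + 2)))) (fun x _ => ?_)
    fun x _ y _ hxy => ?_).trans_eq (by simp)
  · refine Finset.card_image_of_injOn fun γ hγ δ hδ h => funext fun i => ?_
    have h1 := hb γ hγ i
    have h2 := hb δ hδ i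
    have := key _ _ (congrFun h i) (by rw [abs_lt]; constructor <;> nlinarith)
    omega
  · rw [Finset.disjoint_left]
    intro t h1 h2
    obtain ⟨γ, hγ, rfl⟩ := Finset.mem_image.1 h1
    obtain ⟨δ, hδ, h⟩ := Finset.mem_image.1 h2
    refine hs γ hγ δ hδ x y hxy fun i => ?_
    have h1 := hb γ hγ i
    have h2 := hb δ hδ i
    have h3 := abs_le.1 (cl_near (q := q) hxy i)
    have := key _ _ (congrFun h i) (by rw [abs_lt]; constructor <;> nlinarith)
    omega

theorem frac_le_sq {L : ℕ} (hL : 0 < L) {α : ℝ} (hα : 0 < α) (h : ENNReal.ofReal α < ratio 1) :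
    frac univ ≤ ENNReal.ofReal ((1 + 2 / (L : ℝ)) ^ 2 / α) := by
  have hL' : (0:ℝ) < L := by exact_mod_cast hL
  let K : Set Plane := {x | ∀ i, x i ∈ Ico (0:ℝ) L}
  have hK : MeasurableSet K := by
    have : K = ⋂ i, (fun x : Plane => x i) ⁻¹' Ico (0:ℝ) L := by ext x; simp [K]
    rw [this]
    exact MeasurableSet.iInter fun i => (by fun_prop : Measurable fun x : Plane => x i)
      measurableSet_Ico
  have hvK : volume K = ENNReal.ofReal ((L : ℝ) ^ 2) := by
    rw [vol_box (fun _ => 0) (fun _ => L), Fin.prod_univ_two, sub_zero,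
      ← ENNReal.ofReal_mul hL'.le, sq]
  obtain ⟨A, hA, hv⟩ := local_family 1 hK (N := 2 * L) fun x hx => by
    refine le_of_sq_le_sq (by
      rw [EuclideanSpace.real_norm_sq_eq, Fin.sum_univ_two]
      push_cast
      nlinarith [(hx 0).1, (hx 0).2, (hx 1).1, (hx 1).2]) (by positivity)
  have hU : (⋃ i, A i) = A 0 := by
    ext x
    simp [Fin.exists_fin_one]
  have hβ : ENNReal.ofReal (α * (L : ℝ) ^ 2) < volume (A 0 ∩ K) := by
    rw [← hU, ENNReal.ofReal_mul hα.le, ← hvK]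
    refine lt_of_lt_of_le (ENNReal.mul_lt_mul_left ?_ ?_ h) hv
    · rw [hvK]
      exact (ENNReal.ofReal_pos.2 (by positivity)).ne'
    · rw [hvK]
      exact ENNReal.ofReal_ne_top
  obtain ⟨n, hn⟩ := exists_scale (hA 0).1 hβ
  set r : ℝ := 1 / ((n : ℝ) + 1) with hr
  have hr0 : 0 < r := by positivity
  set G := {x | x ∈ K ∧ volume.real (closedBall x r \ A 0) ≤ Real.pi * r ^ 2 / 10} with hG
  set q : ℕ := 6 * (n + 1) with hq
  have hq0 : 0 < q := by positivity
  have hq' : (0:ℝ) < q := by exact_mod_cast hq0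
  set Γ := (Fintype.piFinset fun _ : Fin 2 => Finset.Ico (0:ℤ) (q * L)).filter
    fun m => ∃ z ∈ G, cl q z = m with hΓ
  have hsub : G ⊆ ⋃ m ∈ Γ, {x | cl q x = m} := fun z hz => by
    refine mem_biUnion (x := cl q z) (Finset.mem_filter.2
      ⟨Fintype.mem_piFinset.2 fun i => Finset.mem_Ico.2 ⟨?_, ?_⟩, z, hz, rfl⟩) rfl
    · exact Int.floor_nonneg.2 (mul_nonneg hq'.le (hz.1 i).1)
    · refine Int.floor_lt.2 ?_
      push_cast
      exact mul_lt_mul_of_pos_left (hz.1 i).2 hq'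
  have h1 : α * (L : ℝ) ^ 2 < Γ.card * (1 / (q : ℝ) ^ 2) := by
    have h2 := hn.trans_le ((measure_mono hsub).trans ((measure_biUnion_finset_le _ _).trans
      (Finset.sum_le_card_nsmul _ _ _ fun m _ => vol_cell hq0 m)))
    rw [nsmul_eq_mul, ← ENNReal.ofReal_natCast, ← ENNReal.ofReal_mul (Nat.cast_nonneg _)] at h2
    exact (ENNReal.ofReal_lt_ofReal_iff_of_nonneg (by positivity)).1 h2
  have hc : (0:ℝ) < Γ.card :=
    (mul_pos_iff_of_pos_right (by positivity)).1 (lt_trans (by positivity) h1)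
  refine (torus (L := L) hq0 (Finset.card_pos.1 (by exact_mod_cast hc))
    (fun γ hγ i => Finset.mem_Ico.1 (Fintype.mem_piFinset.1 (Finset.mem_filter.1 hγ).1 i))
    fun γ hγ δ hδ x y hxy he => ?_).trans ?_
  · obtain ⟨z₁, hz₁, rfl⟩ := (Finset.mem_filter.1 hγ).2
    obtain ⟨z₂, hz₂, rfl⟩ := (Finset.mem_filter.1 hδ).2
    refine gap (indep_iff.1 (hA 0).2) hr0 (v := x - y) (by rw [← dist_eq_norm, hxy])
      ((cl_close hq0 he).trans_eq ?_) hz₁.2 hz₂.2
    rw [hr, hq]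
    push_cast
    field_simp
    ring
  · rw [← ENNReal.ofReal_natCast, ← ENNReal.ofReal_natCast Γ.card, ← ENNReal.ofReal_div_of_pos hc]
    refine ENNReal.ofReal_le_ofReal ?_
    rw [div_le_div_iff₀ hc hα]
    rw [mul_one_div, lt_div_iff₀ (by positivity)] at h1
    have h3 : ((q * (L + 2)) ^ 2 : ℕ) * α = (1 + 2 / (L : ℝ)) ^ 2 * (α * L ^ 2 * q ^ 2) := by
      push_cast
      field_simp
    rw [h3]
    exact mul_le_mul_of_nonneg_left h1.le (by positivity)

theorem frac_univ_le : frac univ ≤ (ratio 1)⁻¹ := by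
  rw [ENNReal.le_inv_iff_le_inv]
  refine le_of_forall_lt_imp_le_of_dense fun a ha => ?_
  rcases eq_or_ne a 0 with rfl | h0
  · exact zero_le
  have ht : a ≠ ∞ := ne_top_of_lt ha
  have hα := ENNReal.toReal_pos h0 ht
  rw [← ENNReal.le_inv_iff_le_inv]
  have h1 : Tendsto (fun L : ℕ => ENNReal.ofReal ((1 + 2 / (L : ℝ)) ^ 2 / a.toReal)) atTop
      (𝓝 (ENNReal.ofReal ((1 + 0) ^ 2 / a.toReal))) :=
    ENNReal.tendsto_ofReal (((tendsto_const_nhds.add
      (tendsto_const_div_atTop_nhds_zero_nat 2)).pow 2).div_const _)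
  refine (ge_of_tendsto h1 ((eventually_gt_atTop 0).mono fun L hL =>
    frac_le_sq hL hα (by rwa [ENNReal.ofReal_toReal ht]))).trans_eq ?_
  rw [add_zero, one_pow, one_div, ENNReal.ofReal_inv_of_pos hα, ENNReal.ofReal_toReal ht]

theorem frac_mono {S S' : Set Plane} (h : S ⊆ S') : frac S ≤ frac S' :=
  le_iInf fun a => le_iInf fun b => le_iInf fun hb => le_iInf fun c => le_iInf fun h1 =>
    le_iInf fun h2 => iInf_le_of_le a (iInf_le_of_le b (iInf_le_of_le hb (iInf_le_of_le c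
      (iInf_le_of_le (fun x hx => h1 x (h hx))
        (iInf_le_of_le (fun x hx y hy => h2 x (h hx) y (h hy)) le_rfl)))))

theorem le_frac {S : Finset Plane} (hS : S.Nonempty) : (alpha 1 S / S.card)⁻¹ ≤ frac S := by
  refine le_iInf fun a => le_iInf fun b => le_iInf fun hb => le_iInf fun c => le_iInf fun h1 =>
    le_iInf fun h2 => ?_
  have h3 : (S.card : ℝ≥0∞) * b ≤ alpha 1 S * a := by
    have h4 : S.card * b = ∑ j : Fin a, (S.filter fun x => j ∈ c x).card := by
      simp only [Finset.card_filter]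
      rw [Finset.sum_comm, ← smul_eq_mul, ← Finset.sum_const]
      refine Finset.sum_congr rfl fun x hx => ?_
      rw [← h1 x hx, ← Finset.card_filter]
      simp
    have h5 : ∀ j : Fin a, ((S.filter fun x => j ∈ c x).card : ℝ≥0∞) ≤ alpha 1 S := fun j =>
      le_alpha (Finset.filter_subset _ _) (colorable_of (fun _ => 0) fun x y hxy _ => by
        have hx := Finset.mem_filter.1 x.2
        have hy := Finset.mem_filter.1 y.2
        exact Finset.disjoint_left.1 (h2 x hx.1 y hy.1 hxy) hx.2 hy.2)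
    rw [← Nat.cast_mul, h4, Nat.cast_sum]
    refine (Finset.sum_le_card_nsmul _ _ _ fun j _ => h5 j).trans_eq ?_
    simp [mul_comm]
  have h5 : (S.card : ℝ≥0∞) ≠ 0 := by exact_mod_cast hS.card_pos.ne'
  have h6 : (b : ℝ≥0∞) ≠ 0 := by exact_mod_cast hb.ne'
  rw [ENNReal.inv_div (Or.inl (by simp)) (Or.inl h5), ENNReal.le_div_iff_mul_le (Or.inl h6)
    (Or.inl (by simp)), div_eq_mul_inv, mul_right_comm, ← div_eq_mul_inv]
  exact ENNReal.div_le_of_le_mul' h3

theorem frac_eq : frac univ = (dens 1)⁻¹ ∧ ⨆ S : Finset Plane, frac S = (dens 1)⁻¹ := by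
  rw [← ratio_eq_dens]
  have h1 : (ratio 1)⁻¹ ≤ ⨆ S : Finset Plane, frac S := by
    rw [ratio]
    simp only [ENNReal.inv_iInf]
    exact iSup_le fun S => iSup_le fun hS => le_iSup_of_le S (le_frac hS)
  have h2 : ⨆ S : Finset Plane, frac S ≤ frac univ := iSup_le fun S => frac_mono (subset_univ _)
  exact ⟨le_antisymm frac_univ_le (h1.trans h2), le_antisymm (h2.trans frac_univ_le) h1⟩

end Vale.Agent.N032X
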