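import Vale.Agent.N032X.Lim
import Vale.Agent.P032.R2.H125.Full
import Vale.Agent.N032X.Defs

/-! P032: the transfer theorem for labellings with weights. -/

open MeasureTheory Set Filter Topology
open scoped ENNReal

namespace Vale.Agent.N032X

open Vale.Agent.P032.M Vale.Agent.P032.R2.H125

/-- Labellings of finite sets with prescribed labels glue. -/
theorem exists_labelling {X : Type*} {k : ℕ} (A : X → X → Prop) (Adj : Fin k → Fin k → Prop)
    (L : X → Fin k → Prop)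
    (h : ∀ F : Finset X, ∃ c : X → Fin k, (∀ x ∈ F, ∀ y ∈ F, A x y → Adj (c x) (c y)) ∧
      ∀ x ∈ F, ∀ i, L x i → c x = i) :
    ∃ c : X → Fin k, (∀ x y, A x y → Adj (c x) (c y)) ∧ ∀ x i, L x i → c x = i := by
  classical
  let K : Finset X → Set (X → Fin k) := fun F =>
    {c | (∀ x ∈ F, ∀ y ∈ F, A x y → Adj (c x) (c y)) ∧ ∀ x ∈ F, ∀ i, L x i → c x = i}
  have hcl : ∀ F, IsClosed (K F) := by
    intro F
    have h1 : K F = (⋂ x ∈ F, ⋂ y ∈ F, ⋂ (_ : A x y), {c : X → Fin k | Adj (c x) (c y)}) ∩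
        ⋂ x ∈ F, ⋂ i, ⋂ (_ : L x i), {c : X → Fin k | c x = i} := by
      ext c
      simp only [K, mem_ofPred_eq, mem_inter_iff, mem_iInter]
    rw [h1]
    refine IsClosed.inter ?_ ?_
    · refine isClosed_biInter fun x _ => isClosed_biInter fun y _ => isClosed_iInter fun _ => ?_
      have h2 : {c : X → Fin k | Adj (c x) (c y)} =
          (fun c : X → Fin k => (c x, c y)) ⁻¹' {p | Adj p.1 p.2} := rfl
      rw [h2]
      exact (isClosed_discrete _).preimage ((continuous_apply x).prodMk (continuous_apply y))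
    · refine isClosed_biInter fun x _ => isClosed_iInter fun i => isClosed_iInter fun _ => ?_
      have h2 : {c : X → Fin k | c x = i} = (fun c : X → Fin k => c x) ⁻¹' {i} := rfl
      rw [h2]
      exact (isClosed_discrete _).preimage (continuous_apply x)
  obtain ⟨c, hc⟩ := IsCompact.nonempty_iInter_of_directed_nonempty_isCompact_isClosed K
    (fun F G => ⟨F ∪ G, fun c hc => ⟨fun x hx y hy => hc.1 x (Finset.mem_union_left _ hx) y
        (Finset.mem_union_left _ hy), fun x hx => hc.2 x (Finset.mem_union_left _ hx)⟩,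
      fun c hc => ⟨fun x hx y hy => hc.1 x (Finset.mem_union_right _ hx) y
        (Finset.mem_union_right _ hy), fun x hx => hc.2 x (Finset.mem_union_right _ hx)⟩⟩)
    (fun F => by
      obtain ⟨c, h1, h2⟩ := h F
      exact ⟨c, h1, h2⟩)
    (fun F => (hcl F).isCompact) hcl
  rw [mem_iInter] at hc
  exact ⟨c, fun x y => (hc {x, y}).1 x (by simp) y (by simp),
    fun x => (hc {x}).2 x (by simp)⟩

theorem good_dir {k : ℕ} {Adj : Fin k → Fin k → Prop} {c : ℂ → Fin k} (hc : Measurable c)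
    (hp : ∀ᵐ x : ℂ, ∀ᵐ t : ℝ, Adj (c x) (c (x + e t))) :
    ∀ᵐ t : ℝ, ∀ᵐ x : ℂ, Adj (c x) (c (x + e t)) := by
  have hm : MeasurableSet {p : ℂ × ℝ | Adj (c p.1) (c (p.1 + e p.2))} := by
    have h1 : Measurable fun p : ℂ × ℝ => c (p.1 + e p.2) :=
      hc.comp (measurable_fst.add (cont_e.measurable.comp measurable_snd))
    have h2 : Measurable fun p : ℂ × ℝ => c p.1 := hc.comp measurable_fst
    exact (h2.prodMk h1) (MeasurableSet.of_discrete (s := {q : Fin k × Fin k | Adj q.1 q.2}))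
  exact (Measure.ae_ae_comm (p := fun (x : ℂ) (t : ℝ) => Adj (c x) (c (x + e t))) hm).1 hp

/-- the finite step -/
theorem finite_step {k : ℕ} {Adj : Fin k → Fin k → Prop} {c : ℂ → Fin k} (hc : Measurable c)
    (hp : ∀ᵐ x : ℂ, ∀ᵐ t : ℝ, Adj (c x) (c (x + e t))) (F : Finset ℂ) :
    ∃ c' : ℂ → Fin k, (∀ x ∈ F, ∀ y ∈ F, dist x y = 1 → Adj (c' x) (c' y)) ∧
      ∀ x ∈ F, ∀ i, IsDens (c ⁻¹' {i}) x → c' x = i := by
  classical
  set P : Finset (ℂ × Fin k) := (F ×ˢ Finset.univ).filter fun p => IsDens (c ⁻¹' {p.2}) p.1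
    with hP
  set ε : ℝ := 1 / (8 * ((P.card : ℝ) + 1)) with hε
  have hcard : (0 : ℝ) ≤ P.card := Nat.cast_nonneg _
  have hε0 : 0 < ε := by positivity
  have hε1 : ε ≤ 1 := by
    rw [hε, div_le_one (by positivity)]
    linarith
  have h1 : ∀ p ∈ P, ∃ r₀ : ℝ, 0 < r₀ ∧ ∀ r, 0 < r → r < r₀ →
      volume (Metric.closedBall p.1 r \ (c ⁻¹' {p.2})) ≤
        ENNReal.ofReal ε * volume (Metric.closedBall p.1 r) := fun p hp' =>
    dens_compl (hc (measurableSet_singleton _)) (Finset.mem_filter.1 hp').2 hε0 hε1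
  choose! r₀ hr₀ hb using h1
  obtain ⟨r, hr, hrP⟩ : ∃ r : ℝ, 0 < r ∧ ∀ p ∈ P, 2 * r < r₀ p := by
    by_cases hne : P.Nonempty
    · refine ⟨P.inf' hne r₀ / 4, ?_, fun p hp' => ?_⟩
      · have : 0 < P.inf' hne r₀ := by
          rw [Finset.lt_inf'_iff]
          exact hr₀
        linarith
      · have h2 := Finset.inf'_le r₀ hp'
        have h3 := hr₀ p hp'
        linarith
    · exact ⟨1, one_pos, fun p hp' => absurd ⟨p, hp'⟩ hne⟩
  obtain ⟨R, hR, hRF⟩ : ∃ R : ℝ, 0 < R ∧ ∀ x ∈ F, ‖x‖ ≤ R := by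
    refine ⟨∑ x ∈ F, ‖x‖ + 1, ?_, fun x hx => ?_⟩
    · have : 0 ≤ ∑ x ∈ F, ‖x‖ := Finset.sum_nonneg fun x _ => norm_nonneg x
      linarith
    · have := Finset.single_le_sum (f := fun x : ℂ => ‖x‖) (fun y _ => norm_nonneg y) hx
      linarith
  have hdir : ∀ x y : ℂ, dist x y = 1 → ∃ θ : ℝ, y = x + e θ := by
    intro x y h
    obtain ⟨θ, hθ⟩ := exists_e_of_norm (z := y - x) (by rw [← dist_eq_norm, dist_comm, h])
    exact ⟨θ, by rw [← hθ]; ring⟩
  choose! θ hθ using hdir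
  -- the angle
  have hs : ∀ᵐ s : ℝ, ∀ p ∈ F ×ˢ F, ∀ᵐ x : ℂ, Adj (c x) (c (x + e (θ p.1 p.2 + s))) := by
    rw [Filter.eventually_all_finset]
    intro p _
    exact (measurePreserving_add_left (volume : Measure ℝ) (θ p.1 p.2)).quasiMeasurePreserving.ae
      (N032X.good_dir hc hp)
  obtain ⟨s, hsV, hs⟩ := exists_of_ae (μ := (volume : Measure ℝ)) (V := {s : ℝ | ‖e s - 1‖ < r / R})
    (isOpen_lt (cont_e.sub continuous_const).norm continuous_const)
    ⟨0, by
      show ‖e 0 - 1‖ < r / R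
      have : e 0 = 1 := by unfold e; simp
      rw [this, sub_self, norm_zero]
      positivity⟩ hs
  have hmove : ∀ x ∈ F, ‖e s * x - x‖ ≤ r := by
    intro x hx
    have h2 : e s * x - x = (e s - 1) * x := by ring
    rw [h2, norm_mul]
    have h3 : ‖e s - 1‖ < r / R := hsV
    calc ‖e s - 1‖ * ‖x‖ ≤ r / R * R := mul_le_mul h3.le (hRF x hx) (norm_nonneg _) (by positivity)
      _ = r := by field_simp
  -- the translation
  have ht : ∀ᵐ t : ℂ, ∀ p ∈ F ×ˢ F,
      Adj (c (e s * p.1 + t)) (c (e s * p.1 + t + e (θ p.1 p.2 + s))) := by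
    rw [Filter.eventually_all_finset]
    intro p hp'
    exact (measurePreserving_add_left (volume : Measure ℂ) (e s * p.1)).quasiMeasurePreserving.ae
      (hs p hp')
  set bad : ℂ × Fin k → Set ℂ := fun p =>
    {t | t ∈ Metric.closedBall (0 : ℂ) r ∧ c (e s * p.1 + t) ≠ p.2} with hbad
  have hbadm : ∀ p ∈ P, volume (bad p) ≤ ENNReal.ofReal (ε * (Real.pi * (2 * r) ^ 2)) := by
    intro p hp'
    have hpF : p.1 ∈ F := (Finset.mem_product.1 (Finset.mem_filter.1 hp').1).1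
    have h2 : bad p ⊆ (fun t => e s * p.1 + t) ⁻¹'
        (Metric.closedBall p.1 (2 * r) \ (c ⁻¹' {p.2})) := by
      rintro t ⟨h3, h4⟩
      refine ⟨?_, fun h5 => h4 h5⟩
      rw [Metric.mem_closedBall, dist_zero_right] at h3
      rw [Metric.mem_closedBall, dist_eq_norm]
      have h5 : e s * p.1 + t - p.1 = (e s * p.1 - p.1) + t := by ring
      rw [h5]
      calc ‖e s * p.1 - p.1 + t‖ ≤ ‖e s * p.1 - p.1‖ + ‖t‖ := norm_add_le _ _
        _ ≤ r + r := add_le_add (hmove _ hpF) h3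
        _ = 2 * r := by ring
    calc volume (bad p) ≤ volume ((fun t => e s * p.1 + t) ⁻¹'
          (Metric.closedBall p.1 (2 * r) \ (c ⁻¹' {p.2}))) := measure_mono h2
      _ = volume (Metric.closedBall p.1 (2 * r) \ (c ⁻¹' {p.2})) := by
        rw [measure_preimage_add]
      _ ≤ ENNReal.ofReal ε * volume (Metric.closedBall p.1 (2 * r)) :=
        hb p hp' (2 * r) (by positivity) (hrP p hp')
      _ = ENNReal.ofReal (ε * (Real.pi * (2 * r) ^ 2)) := by
        rw [vol_ball _ (by positivity), ENNReal.ofReal_mul hε0.le]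
  obtain ⟨t, htG, htb⟩ : ∃ t : ℂ,
      (∀ p ∈ F ×ˢ F, Adj (c (e s * p.1 + t)) (c (e s * p.1 + t + e (θ p.1 p.2 + s)))) ∧
      ∀ p ∈ P, c (e s * p.1 + t) = p.2 := by
    by_contra hcon
    push Not at hcon
    have h2 : Metric.closedBall (0 : ℂ) r ⊆
        {t | ¬ ∀ p ∈ F ×ˢ F, Adj (c (e s * p.1 + t)) (c (e s * p.1 + t + e (θ p.1 p.2 + s)))} ∪
          ⋃ p ∈ P, bad p := by
      intro t ht'
      by_cases h3 : ∀ p ∈ F ×ˢ F, Adj (c (e s * p.1 + t)) (c (e s * p.1 + t + e (θ p.1 p.2 + s)))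
      · right
        obtain ⟨p, hp', h4⟩ := hcon t h3
        exact mem_iUnion₂.2 ⟨p, hp', ht', h4⟩
      · left
        exact h3
    have h3 : volume (Metric.closedBall (0 : ℂ) r) ≤
        ENNReal.ofReal ((P.card : ℝ) * (ε * (Real.pi * (2 * r) ^ 2))) := by
      calc volume (Metric.closedBall (0 : ℂ) r) ≤ _ := measure_mono h2
        _ ≤ volume {t | ¬ ∀ p ∈ F ×ˢ F,
              Adj (c (e s * p.1 + t)) (c (e s * p.1 + t + e (θ p.1 p.2 + s)))} +
            volume (⋃ p ∈ P, bad p) := measure_union_le _ _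
        _ = volume (⋃ p ∈ P, bad p) := by rw [ae_iff.1 ht, zero_add]
        _ ≤ ∑ p ∈ P, volume (bad p) := measure_biUnion_finset_le _ _
        _ ≤ ∑ _p ∈ P, ENNReal.ofReal (ε * (Real.pi * (2 * r) ^ 2)) :=
          Finset.sum_le_sum hbadm
        _ = ENNReal.ofReal ((P.card : ℝ) * (ε * (Real.pi * (2 * r) ^ 2))) := by
          rw [Finset.sum_const, nsmul_eq_mul, ENNReal.ofReal_mul hcard,
            ENNReal.ofReal_natCast]
    rw [vol_ball _ hr.le, ENNReal.ofReal_le_ofReal_iff (by positivity)] at h3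
    have h4 : (P.card : ℝ) * ε ≤ 1 / 8 := by
      rw [hε, mul_one_div, div_le_iff₀ (by positivity)]
      linarith
    have h5 : 0 < Real.pi * r ^ 2 := by positivity
    have h6 : (P.card : ℝ) * (ε * (Real.pi * (2 * r) ^ 2)) =
        4 * ((P.card : ℝ) * ε) * (Real.pi * r ^ 2) := by ring
    rw [h6] at h3
    nlinarith
  refine ⟨fun x => c (e s * x + t), fun x hx y hy hxy => ?_, fun x hx i hi => ?_⟩
  · have h2 := htG (x, y) (Finset.mem_product.2 ⟨hx, hy⟩)
    have h3 : e s * y + t = e s * x + t + e (θ x y + s) := by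
      conv_lhs => rw [hθ x y hxy]
      rw [mul_add, e_mul]
      ring
    show Adj (c (e s * x + t)) (c (e s * y + t))
    rw [h3]
    exact h2
  · exact htb (x, i) (Finset.mem_filter.2 ⟨Finset.mem_product.2 ⟨hx, Finset.mem_univ i⟩, hi⟩)

/-- The transfer theorem in the complex plane. -/
theorem transferC {k : ℕ} {Adj : Fin k → Fin k → Prop} (hsy : ∀ p q, Adj p q → Adj q p)
    (hlo : ∀ p q, ¬ Adj p q → ¬ Adj p p) {w : Fin k → ℝ} (hw0 : ∀ i, 0 ≤ w i) (hw1 : ∀ i, w i ≤ 1)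
    (hwa : Antitone w) {a : ℝ} (ha : 0 ≤ a) (h : Hyp Adj w a) {K : Set ℂ} (hK : MeasurableSet K)
    {N₀ : ℕ} (hKN : ∀ x ∈ K, ‖x‖ ≤ N₀) :
    ∃ c : ℂ → Fin k, (∀ i, NullMeasurableSet (c ⁻¹' {i}) volume) ∧
      (∀ x y, dist x y = 1 → Adj (c x) (c y)) ∧ a * volume.real K ≤ ∫ x in K, w (c x) := by
  obtain ⟨c₁, hc₁, hp₁, hd⟩ := lim_ae hsy hlo hw0 hw1 hwa ha h hK hKN
  obtain ⟨c₂, hpr, hdens⟩ := exists_labelling (fun x y : ℂ => dist x y = 1) Adj
    (fun x i => IsDens (c₁ ⁻¹' {i}) x) (N032X.finite_step hc₁ hp₁)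
  have hae : ∀ᵐ x : ℂ, c₂ x = c₁ x := by
    filter_upwards [ae_isDens hc₁] with x hx
    exact hdens x _ hx
  refine ⟨c₂, fun i => ?_, hpr, hd.trans_eq (integral_congr_ae ?_)⟩
  · refine (hc₁ (measurableSet_singleton i)).nullMeasurableSet.congr ?_
    filter_upwards [hae] with x hx
    exact propext ⟨fun h => hx.trans h, fun h => hx.symm.trans h⟩
  · filter_upwards [ae_restrict_of_ae hae] with x hx
    rw [hx]

/-- the standard identification -/
noncomputable def iso : ℂ ≃ₗᵢ[ℝ] Plane := Complex.orthonormalBasisOneI.repr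

/-- The transfer theorem. -/
theorem transfer {k : ℕ} {Adj : Fin k → Fin k → Prop} (hsy : ∀ p q, Adj p q → Adj q p)
    (hlo : ∀ p q, ¬ Adj p q → ¬ Adj p p) {w : Fin k → ℝ} (hw0 : ∀ i, 0 ≤ w i) (hw1 : ∀ i, w i ≤ 1)
    (hwa : Antitone w) {a : ℝ} (ha : 0 ≤ a)
    (h : ∀ S : Finset Plane, ∃ c : Plane → Fin k,
      (∀ x ∈ S, ∀ y ∈ S, dist x y = 1 → Adj (c x) (c y)) ∧ a * S.card ≤ ∑ x ∈ S, w (c x))
    {K : Set Plane} (hK : MeasurableSet K) {N₀ : ℕ} (hKN : ∀ x ∈ K, ‖x‖ ≤ N₀) :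
    ∃ c : Plane → Fin k, (∀ i, NullMeasurableSet (c ⁻¹' {i}) volume) ∧
      (∀ x y, dist x y = 1 → Adj (c x) (c y)) ∧ a * volume.real K ≤ ∫ x in K, w (c x) := by
  classical
  have h' : Hyp Adj w a := by
    intro S
    obtain ⟨c, h1, h2⟩ := h (S.image iso)
    refine ⟨fun z => c (iso z), fun x hx y hy hxy => h1 _ (Finset.mem_image_of_mem _ hx) _
      (Finset.mem_image_of_mem _ hy) (by rw [iso.dist_map]; exact hxy), ?_⟩
    rwa [Finset.card_image_of_injective _ iso.injective,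
      Finset.sum_image fun x _ y _ hxy => iso.injective hxy] at h2
  obtain ⟨c, h1, h2, h3⟩ := transferC hsy hlo hw0 hw1 hwa ha h' (K := iso ⁻¹' K)
    (iso.continuous.measurable hK) (N₀ := N₀) fun x hx => by
      rw [← iso.norm_map]; exact hKN _ hx
  refine ⟨fun x => c (iso.symm x), fun i =>
    (h1 i).preimage iso.symm.measurePreserving.quasiMeasurePreserving,
    fun x y hxy => h2 _ _ (by rw [iso.symm.dist_map]; exact hxy), ?_⟩
  have e1 : volume.real (iso ⁻¹' K) = volume.real K :=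
    iso.measurePreserving.measureReal_preimage hK.nullMeasurableSet
  have e2 := iso.measurePreserving.setIntegral_preimage_emb
    iso.toHomeomorph.measurableEmbedding (fun x => w (c (iso.symm x))) K
  simp only [LinearIsometryEquiv.symm_apply_apply] at e2
  rw [← e1, ← e2]
  exact h3

end Vale.Agent.N032X
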