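import Vale.Agent.N032X.Dis

/-! P032: the weak limit of the discretised labellings. -/

open MeasureTheory Set Filter Topology
open scoped ENNReal Classical

namespace Vale.Agent.N032X

open Vale.Agent.P032.M Vale.Agent.P032

theorem sum_colInd {k : ℕ} (c : ℂ → Fin k) (r : Fin k → ℝ) (x : ℂ) :
    ∑ i, r i * colInd c i x = r (c x) := by
  rw [Finset.sum_eq_single (c x)]
  · rw [colInd_eq_one rfl, mul_one]
  · intro b _ hb
    rw [colInd_eq_zero hb.symm, mul_zero]
  · intro h; exact absurd (Finset.mem_univ _) h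

theorem weak_comb {k : ℕ} {g : Fin k → ℕ → ℂ → ℝ} {φ : Fin k → ℂ → ℝ}
    (hm : ∀ i n, Measurable (g i n)) (hb : ∀ i n x, |g i n x| ≤ 1) (hφ : ∀ i, Measurable (φ i))
    (hφb : ∀ i x, |φ i x| ≤ 1) (hw : ∀ i, WeakLim (g i) (φ i)) (r : Fin k → ℝ) :
    WeakLim (fun n x => ∑ i, r i * g i n x) (fun x => ∑ i, r i * φ i x) := by
  intro f hf
  have e1 : ∀ u : Fin k → ℂ → ℝ, (∀ i, Measurable (u i)) → (∀ i x, |u i x| ≤ 1) →
      ∫ x, (∑ i, r i * u i x) * f x ∂mu = ∑ i, r i * ∫ x, u i x * f x ∂mu := by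
    intro u hu hub
    simp only [Finset.sum_mul, mul_assoc]
    rw [integral_finsetSum _ fun i _ => (integrable_mul_of_bdd (hu i) (hub i) hf).const_mul _]
    simp only [integral_const_mul]
  simp only [e1 _ hφ hφb, fun n => e1 (fun i => g i n) (fun i => hm i n) (fun i => hb i n)]
  exact tendsto_finsetSum _ fun i _ => (hw i f hf).const_mul _

theorem weak_one {ψ : ℂ → ℝ} (hψ : Integrable ψ mu) (hw : WeakLim (fun _ _ => 1) ψ) :
    ∀ᵐ x : ℂ, ψ x = 1 := by
  refine ac_mu.ae_le ?_
  refine Integrable.ae_eq_of_forall_setIntegral_eq _ _ hψ (integrable_const (1:ℝ)) ?_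
  intro S hS _
  have e1 : ∀ u : ℂ → ℝ, ∫ x, u x * S.indicator (fun _ => (1:ℝ)) x ∂mu = ∫ x in S, u x ∂mu := by
    intro u
    rw [← integral_indicator hS]
    congr 1
    ext x
    by_cases hx : x ∈ S <;> simp [hx]
  have h1 := hw _ ((integrable_const (1:ℝ)).indicator hS)
  simp only [e1] at h1
  exact tendsto_nhds_unique h1 tendsto_const_nhds

theorem ball_le_box {g : ℂ → ℝ} (hg : Measurable g) (h0 : ∀ x, 0 ≤ g x) (h1 : ∀ x, g x ≤ 1)
    {R N : ℕ} (hR : R ≤ N) : ∫ x in Metric.ball (0:ℂ) R, g x * avg g x ≤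
      ∫ p in T.Di.box N, g p.1 * g (p.1 + e p.2) := by
  set B := Metric.ball (0:ℂ) R with hB
  set J := Ioc (0:ℝ) (2 * Real.pi) with hJ
  have hBf : volume B ≠ ∞ := measure_ball_lt_top.ne
  have hfin : IsFiniteMeasure (volume.restrict B) := ⟨by simpa using lt_top_iff_ne_top.2 hBf⟩
  have hfin2 : IsFiniteMeasure (volume.restrict J) :=
    ⟨by rw [Measure.restrict_apply_univ, hJ]; exact measure_Ioc_lt_top⟩
  have f2 : IsFiniteMeasure (volume.restrict (T.Di.box N)) :=
    ⟨by simpa using lt_top_iff_ne_top.2 (T.Di.volume_box N)⟩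
  have hint : ∀ (ν : Measure (ℂ × ℝ)) [IsFiniteMeasure ν],
      Integrable (fun p : ℂ × ℝ => g p.1 * g (p.1 + e p.2)) ν := by
    intro ν _
    refine (integrable_const (1:ℝ)).mono ?_ (Eventually.of_forall fun p => ?_)
    · exact ((hg.comp measurable_fst).mul (hg.comp (measurable_fst.add
        (T.Di.measurable_e.comp measurable_snd)))).aestronglyMeasurable
    · rw [norm_one, norm_mul, Real.norm_of_nonneg (h0 _), Real.norm_of_nonneg (h0 _)]
      exact mul_le_one₀ (h1 _) (h0 _) (h1 _)
  have e1 : ∫ x in B, g x * avg g x =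
      ∫ p, g p.1 * g (p.1 + e p.2) ∂((volume.restrict B).prod (volume.restrict J)) := by
    rw [integral_prod _ (hint _)]
    refine integral_congr_ae (Eventually.of_forall fun x => ?_)
    simp only [avg]
    rw [integral_const_mul]
  rw [e1, Measure.prod_restrict, ← Measure.volume_eq_prod]
  refine setIntegral_mono_set (hint _) (Eventually.of_forall fun p => mul_nonneg (h0 _) (h0 _))
    (LE.le.eventuallyLE fun p hp => ⟨?_, hp.2⟩)
  have h2 : p.1 ∈ B := hp.1
  rw [hB, Metric.mem_ball, dist_zero_right] at h2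
  exact h2.le.trans (by exact_mod_cast hR)

/-- the almost everywhere form of the transfer theorem -/
theorem lim_ae {k : ℕ} {Adj : Fin k → Fin k → Prop} (hsy : ∀ p q, Adj p q → Adj q p)
    (hlo : ∀ p q, ¬ Adj p q → ¬ Adj p p) {w : Fin k → ℝ} (hw0 : ∀ i, 0 ≤ w i) (hw1 : ∀ i, w i ≤ 1)
    (hwa : Antitone w) {a : ℝ} (ha : 0 ≤ a) (h : Hyp Adj w a) {K : Set ℂ} (hK : MeasurableSet K)
    {N₀ : ℕ} (hKN : ∀ x ∈ K, ‖x‖ ≤ N₀) :
    ∃ c : ℂ → Fin k, Measurable c ∧ (∀ᵐ x : ℂ, ∀ᵐ t : ℝ, Adj (c x) (c (x + e t))) ∧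
      a * volume.real K ≤ ∫ x in K, w (c x) := by
  obtain ⟨d⟩ := rdata h
  choose c hc hbox hden using fun n : ℕ => key d ha hw1 (n + N₀) hK
    (fun x hx => (hKN x hx).trans (by push_cast; linarith [Nat.cast_nonneg (α := ℝ) n]))
    (show (0:ℝ) < 1 / ((n : ℝ) + 1) by positivity)
  have hKf : volume K ≠ ∞ := by
    refine ((measure_mono (t := Metric.closedBall (0:ℂ) N₀) fun x hx => ?_).trans_lt
      measure_closedBall_lt_top).ne
    simpa using hKN x hx
  have hk : 0 < k := lt_of_le_of_lt (Nat.zero_le _) (c 0 0).2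
  obtain ⟨s, hs, φ, hφm, hφ0, hφ1, hw⟩ := extract_all (fun (i : Fin k) n => colInd (c n) i)
    (fun i n => measurable_colInd (hc n) i) (fun i n x => colInd_nonneg _ _ _)
    (fun i n x => colInd_le _ _ _)
  have hφb : ∀ i x, |φ i x| ≤ 1 := fun i x => by rw [abs_of_nonneg (hφ0 i x)]; exact hφ1 i x
  have hcomb : ∀ r : Fin k → ℝ, WeakLim (fun n x => r (c (s n) x)) (fun x => ∑ i, r i * φ i x) := by
    intro r
    have := weak_comb (g := fun i n => colInd (c (s n)) i) (fun i n => measurable_colInd (hc _) i)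
      (fun i n x => by rw [abs_of_nonneg (colInd_nonneg _ _ _)]; exact colInd_le _ _ _)
      hφm hφb hw r
    simpa only [sum_colInd] using this
  have hcm : ∀ r : Fin k → ℝ, Measurable fun x => ∑ i, r i * φ i x := fun r =>
    Finset.measurable_sum _ fun i _ => (hφm i).const_mul _
  have hsum : ∀ᵐ x : ℂ, ∑ i, φ i x = 1 := by
    have := weak_one (ψ := fun x => ∑ i, 1 * φ i x) (integrable_finsetSum _ fun i _ =>
      ((integrable_const (1:ℝ)).mono (hφm i).aestronglyMeasurable (Eventually.of_forall fun x => by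
        rw [norm_one]; exact hφb i x)).const_mul _) (hcomb fun _ => 1)
    simpa only [one_mul] using this
  let ψ : Finset (Fin k) → ℂ → ℝ := fun t x => min 1 (∑ i, ind t i * φ i x)
  have hψm : ∀ t, Measurable (ψ t) := fun t => measurable_const.min (hcm _)
  have hψ0 : ∀ t x, 0 ≤ ψ t x := fun t x => le_min zero_le_one
    (Finset.sum_nonneg fun i _ => mul_nonneg (ind_nonneg _ _) (hφ0 _ _))
  have hψ1 : ∀ t x, ψ t x ≤ 1 := fun t x => min_le_left _ _
  have hψw : ∀ t, WeakLim (fun n x => ind t (c (s n) x)) (ψ t) := by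
    intro t f hf
    have h1 := hcomb (ind t) f hf
    have h2 : ∫ x, (∑ i, ind t i * φ i x) * f x ∂mu = ∫ x, ψ t x * f x ∂mu := by
      refine integral_congr_ae (mu_ac.ae_le ?_)
      filter_upwards [hsum] with x hx
      show _ = min 1 (∑ i, ind t i * φ i x) * f x
      rw [min_eq_right]
      rw [← hx]
      exact Finset.sum_le_sum fun i _ => mul_le_of_le_one_left (hφ0 _ _) (ind_le _ _)
    rwa [h2] at h1
  have hψpos : ∀ t i x, i ∈ t → 0 < φ i x → 0 < ψ t x := by
    intro t i x hi hx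
    refine lt_min one_pos (hx.trans_le ?_)
    have := Finset.single_le_sum (f := fun i => ind t i * φ i x)
      (fun j _ => mul_nonneg (ind_nonneg _ _) (hφ0 _ _)) (Finset.mem_univ i)
    simpa [ind, hi] using this
  have h1 : ∀ᵐ x : ℂ, ∀ t, Cls Adj t → ψ t x * avg (ψ t) x = 0 := by
    refine ae_all_iff.2 fun t => ?_
    by_cases ht : Cls Adj t
    swap
    · exact Eventually.of_forall fun x h => absurd h ht
    have hgm : ∀ n, Measurable fun x => ind t (c n x) := fun n =>
      (measurable_of_countable (ind t)).comp (hc n)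
    have := mul_avg_zero' sumNull (fun n => hgm (s n)) (fun n x => ind_nonneg _ _)
      (fun n x => ind_le _ _) (hψm t) (hψ0 t) (hψ1 t) (hψw t) fun R => by
        refine squeeze_zero' (Eventually.of_forall fun n => integral_nonneg fun x =>
          mul_nonneg (ind_nonneg _ _) (avg_nonneg (fun _ => ind_nonneg _ _) _)) ?_
          ((tendsto_one_div_add_atTop_nhds_zero_nat (𝕜 := ℝ)).comp hs.tendsto_atTop)
        filter_upwards [hs.tendsto_atTop.eventually (eventually_ge_atTop R)] with n hn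
        exact (ball_le_box (hgm (s n)) (fun _ => ind_nonneg _ _) (fun _ => ind_le _ _)
          (hn.trans (Nat.le_add_right _ N₀))).trans (hbox (s n) t ht)
    filter_upwards [this] with x hx _ using hx
  obtain ⟨c', hc'm, hc'⟩ := exists_min_pick hk (fun j => {x | 0 < φ j x})
    (fun j => measurableSet_lt measurable_const (hφm j))
  have hgood : ∀ x, ∑ i, φ i x = 1 → 0 < φ (c' x) x ∧ ∀ j, 0 < φ j x → c' x ≤ j := by
    intro x hx
    refine hc' x ?_
    by_contra hcon
    push Not at hcon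
    have : ∑ i, φ i x ≤ 0 := Finset.sum_nonpos fun i _ => by
      have := hcon i
      simpa using this
    rw [hx] at this
    linarith
  refine ⟨c', hc'm, ?_, ?_⟩
  · have h2 : ∀ᵐ x : ℂ, ∀ᵐ t : ℝ, ∑ i, φ i (x + e t) = 1 := ae_shift hsum
    filter_upwards [h1, h2, hsum] with x hx1 hx2 hx3
    have h3 : ∀ᵐ t : ℝ, ∀ q, ¬ Adj (c' x) q → ψ {c' x, q} (x + e t) = 0 := by
      refine ae_all_iff.2 fun q => ?_
      by_cases hq : Adj (c' x) q
      · exact Eventually.of_forall fun t h => absurd hq h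
      have hcl : Cls Adj {c' x, q} := by
        intro i hi j hj
        simp only [Finset.mem_insert, Finset.mem_singleton] at hi hj
        rcases hi with rfl | rfl <;> rcases hj with rfl | rfl
        · exact hlo _ _ hq
        · exact hq
        · exact fun h => hq (hsy _ _ h)
        · exact hlo _ _ fun h => hq (hsy _ _ h)
      have h4 : avg (ψ {c' x, q}) x = 0 := (mul_eq_zero.1 (hx1 _ hcl)).resolve_left
        (hψpos _ _ x (by simp) (hgood x hx3).1).ne'
      filter_upwards [ae_dir_of_avg_zero (hψm _) (hψ0 _) (hψ1 _) h4] with t ht _ using ht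
    filter_upwards [hx2, h3] with t ht1 ht2
    by_contra hq
    exact (hψpos _ _ _ (by simp) (hgood _ ht1).1).ne' (ht2 _ hq)
  · have hF : Integrable (K.indicator fun _ => (1:ℝ)) (volume : Measure ℂ) :=
      (integrable_indicator_iff hK).2 (integrableOn_const hKf)
    have e1 : ∀ u : ℂ → ℝ, ∫ x, u x * K.indicator (fun _ => (1:ℝ)) x = ∫ x in K, u x := by
      intro u
      rw [← integral_indicator hK]
      congr 1
      ext x
      by_cases hx : x ∈ K <;> simp [hx]
    have h2 := (hcomb w).tendsto_volume hF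
    simp only [e1] at h2
    have h3 : Tendsto (fun n => a * volume.real K - 1 / ((s n : ℝ) + 1)) atTop
        (𝓝 (a * volume.real K - 0)) := tendsto_const_nhds.sub
      ((tendsto_one_div_add_atTop_nhds_zero_nat (𝕜 := ℝ)).comp hs.tendsto_atTop)
    rw [sub_zero] at h3
    refine (le_of_tendsto_of_tendsto' h3 h2 fun n => hden (s n)).trans ?_
    have f1 : IsFiniteMeasure (volume.restrict K) := ⟨by simpa using lt_top_iff_ne_top.2 hKf⟩
    refine integral_mono_of_nonneg (Eventually.of_forall fun x =>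
      Finset.sum_nonneg fun i _ => mul_nonneg (hw0 i) (hφ0 i x)) ?_ ?_
    · refine (integrable_const (1:ℝ)).mono
        ((measurable_of_countable w).comp hc'm).aestronglyMeasurable
        (Eventually.of_forall fun x => ?_)
      rw [norm_one, Real.norm_of_nonneg (hw0 _)]
      exact hw1 _
    · filter_upwards [ae_restrict_of_ae hsum] with x hx
      calc ∑ i, w i * φ i x ≤ ∑ i, w (c' x) * φ i x := by
            refine Finset.sum_le_sum fun i _ => ?_
            rcases (hφ0 i x).eq_or_lt with h0 | h0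
            · rw [← h0, mul_zero, mul_zero]
            · exact mul_le_mul_of_nonneg_right (hwa ((hgood x hx).2 i h0)) h0.le
        _ = w (c' x) := by rw [← Finset.mul_sum, hx, mul_one]

end Vale.Agent.N032X
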