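import Vale.Agent.N032X.Frac
import Vale.Agent.N032.Final

/-! P032: the chromatic number, and homomorphisms to finite graphs. -/

open MeasureTheory Set
open scoped ENNReal

namespace Vale.Agent.N032X

theorem six_le_chi : 6 ≤ unitGraph.chromaticNumber := by
  have h : ((6 : ℕ) : ℕ∞) ≤ unitGraph.chromaticNumber := by
    rw [SimpleGraph.le_chromaticNumber_iff_colorable]
    rintro m ⟨C⟩
    exact_mod_cast N032.six_le C fun x y h => C.valid h
  exact_mod_cast h

theorem chi_le_seven : unitGraph.chromaticNumber ≤ 7 := by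
  obtain ⟨c, hc⟩ := N032.seven
  have h : unitGraph.Colorable 7 := ⟨SimpleGraph.Coloring.mk c fun {x y} h => hc x y h⟩
  exact_mod_cast h.chromaticNumber_le

theorem chi_seven_iff : unitGraph.chromaticNumber = 7 ↔ dens 6 < 1 := by
  rw [lt_iff_le_and_ne, ne_eq, ← colorable_iff, ← SimpleGraph.chromaticNumber_le_iff_colorable,
    ← ratio_eq_dens, and_iff_right (ratio_le_one 6), not_le]
  constructor
  · intro h
    rw [h]
    norm_num
  · intro h
    exact le_antisymm chi_le_seven (Order.add_one_le_of_lt h)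

theorem hom_measurable (k : ℕ) (H : SimpleGraph (Fin k)) (h : Nonempty (unitGraph →g H)) :
    ∃ f : unitGraph →g H, ∀ i, NullMeasurableSet (f ⁻¹' {i}) volume := by
  obtain ⟨g⟩ := h
  obtain ⟨c, h1, h2, -⟩ := transfer (Adj := H.Adj) (fun p q h => h.symm)
    (fun p q _ => H.irrefl) (w := fun _ => 0) (fun _ => le_rfl) (fun _ => zero_le_one)
    antitone_const (a := 0) le_rfl
    (fun S => ⟨g, fun x _ y _ h => g.map_adj (show unitGraph.Adj x y from h), by simp⟩)
    MeasurableSet.empty (N₀ := 0) (fun x hx => absurd hx (notMem_empty x))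
  exact ⟨⟨c, fun {x y} h => h2 x y h⟩, h1⟩

end Vale.Agent.N032X
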