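import Vale.Agent.N032X.Foel
import Vale.Agent.P032.T.ChiFinal

/-! P032: invariant random labellings of the algebraic numbers. -/

open Set Filter Topology
open scoped Classical

namespace Vale.Agent.N032X

open Vale.Agent.P032.T

/-- indicator of a set of labels -/
noncomputable def ind {k : ℕ} (s : Finset (Fin k)) (i : Fin k) : ℝ := if i ∈ s then 1 else 0

theorem ind_nonneg {k : ℕ} (s : Finset (Fin k)) (i : Fin k) : 0 ≤ ind s i := by
  unfold ind; split_ifs <;> simp

theorem ind_le {k : ℕ} (s : Finset (Fin k)) (i : Fin k) : ind s i ≤ 1 := by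
  unfold ind; split_ifs <;> simp

theorem ind_mul_abs {k : ℕ} (s : Finset (Fin k)) (i j : Fin k) : |ind s i * ind s j| ≤ 1 := by
  rw [abs_of_nonneg (mul_nonneg (ind_nonneg s i) (ind_nonneg s j))]
  exact mul_le_one₀ (ind_le s i) (ind_nonneg s j) (ind_le s j)

/-- sets of labels no two of which may be at distance one -/
def Cls {k : ℕ} (Adj : Fin k → Fin k → Prop) (s : Finset (Fin k)) : Prop :=
  ∀ p ∈ s, ∀ q ∈ s, ¬ Adj p q

/-- every finite set has an admissible labelling of mean weight at least `a` -/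
def Hyp {k : ℕ} (Adj : Fin k → Fin k → Prop) (w : Fin k → ℝ) (a : ℝ) : Prop :=
  ∀ S : Finset ℂ, ∃ c : ℂ → Fin k, (∀ x ∈ S, ∀ y ∈ S, dist x y = 1 → Adj (c x) (c y)) ∧
    a * S.card ≤ ∑ x ∈ S, w (c x)

/-- invariant random labellings -/
structure RData {k : ℕ} (Adj : Fin k → Fin k → Prop) (w : Fin k → ℝ) (a : ℝ) where
  E : ((ℕ × KK) × UA → ℝ) → ℝ
  c : (ℕ × KK) × UA → KK → Fin k
  f : Finset (Fin k) → KK → ℝ
  mean : IsMean E
  corr : ∀ s x y, E (fun p => ind s (c p x) * ind s (c p y)) = f s (x - y)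
  decay : ∀ s, Cls Adj s → Decay (f s)
  dens : ∀ x, a ≤ E (fun p => w (c p x))

theorem rdata {k : ℕ} {Adj : Fin k → Fin k → Prop} {w : Fin k → ℝ} {a : ℝ} (h : Hyp Adj w a) :
    Nonempty (RData Adj w a) := by
  have hK := countable_KK_corr
  have hU := countable_UA_corr
  obtain ⟨F, M1, hM1, inv1, zero1, low1⟩ := mean1 KK
  obtain ⟨M2, add2, smul2, pos2, one2, inv2⟩ := mean UA
  have hM2 : IsMean M2 := ⟨add2, smul2, pos2, one2⟩
  choose cn hcn hwn using fun n : ℕ => h ((F n).image fun b : KK => (b : ℂ))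
  let E : ((ℕ × KK) × UA → ℝ) → ℝ := fun G => M2 (fun u => M1 (fun b => G (b, u)))
  have hbd1 : ∀ G : (ℕ × KK) × UA → ℝ, Bdd G → ∀ u, Bdd (fun b => G (b, u)) := by
    rintro G ⟨C, hC⟩ u
    exact ⟨C, fun b => hC _⟩
  have hbd2 : ∀ G : (ℕ × KK) × UA → ℝ, Bdd G → Bdd (fun u : UA => M1 (fun b => G (b, u))) := by
    rintro G ⟨C, hC⟩
    exact ⟨C, fun u => hM1.abs_le fun b => hC _⟩
  have hE : IsMean E := by
    refine ⟨fun g h hg hh => ?_, fun r g hg => ?_, fun g hg h0 => ?_, ?_⟩
    · show M2 (fun u => M1 (fun b => g (b, u) + h (b, u))) = _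
      rw [← add2 _ _ (hbd2 g hg) (hbd2 h hh)]
      congr 1
      funext u
      exact hM1.add _ _ (hbd1 g hg u) (hbd1 h hh u)
    · show M2 (fun u => M1 (fun b => r * g (b, u))) = _
      rw [← smul2 _ _ (hbd2 g hg)]
      congr 1
      funext u
      exact hM1.smul _ _ (hbd1 g hg u)
    · exact pos2 _ (hbd2 g hg) fun u => hM1.nonneg _ (hbd1 g hg u) fun b => h0 _
    · show M2 (fun _ => M1 (fun _ => 1)) = 1
      simp only [hM1.one, one2]
  let c : (ℕ × KK) × UA → KK → Fin k := fun p x => cn p.1.1 ((p.1.2 + (toUK p.2).1 * x : KK) : ℂ)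
  let G : Finset (Fin k) → KK → KK → (ℕ × KK) × UA → ℝ :=
    fun s x y p => ind s (c p x) * ind s (c p y)
  have hG : ∀ s x y, Bdd (G s x y) := fun s x y => ⟨1, fun p => ind_mul_abs s _ _⟩
  have hcorr : ∀ s x y, E (G s x y) = E (G s (x - y) 0) := by
    intro s x y
    show M2 (fun u => M1 (fun b => G s x y (b, u))) = M2 (fun u => M1 (fun b => G s (x - y) 0 (b, u)))
    congr 1
    funext u
    rw [← inv1 (fun b => G s (x - y) 0 (b, u)) ((toUK u).1 * y) (hbd1 _ (hG s _ _) u)]
    congr 1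
    funext b
    have e1 : b.2 + (toUK u).1 * y + (toUK u).1 * (x - y) = b.2 + (toUK u).1 * x := by ring
    have e2 : b.2 + (toUK u).1 * y + (toUK u).1 * 0 = b.2 + (toUK u).1 * y := by ring
    simp only [G, c, e1, e2]
  let f : Finset (Fin k) → KK → ℝ := fun s z => E (G s z 0)
  refine ⟨⟨E, c, f, hE, fun s x y => hcorr s x y, fun s hs => tStmt (f s) ?_ ?_ ?_ ?_, ?_⟩⟩
  · intro t r
    have hin := fun x : KK => hE.sum t (fun y p => (r x * r y) * G s x y p)
      fun y => bdd_smul _ (hG s x y)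
    have hout := hE.sum t (fun x p => ∑ y ∈ t, (r x * r y) * G s x y p) fun x => (hin x).1
    have hval : ∑ x ∈ t, ∑ y ∈ t, r x * r y * f s (x - y) =
        E (fun p => ∑ x ∈ t, ∑ y ∈ t, (r x * r y) * G s x y p) := by
      rw [hout.2]
      refine Finset.sum_congr rfl fun x _ => ?_
      rw [(hin x).2]
      refine Finset.sum_congr rfl fun y _ => ?_
      rw [hE.smul _ _ (hG s x y), hcorr s x y]
    rw [hval]
    refine hE.nonneg _ hout.1 fun p => ?_
    have : ∑ x ∈ t, ∑ y ∈ t, (r x * r y) * G s x y p =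
        (∑ x ∈ t, r x * ind s (c p x)) * (∑ y ∈ t, r y * ind s (c p y)) := by
      rw [Finset.sum_mul_sum]
      refine Finset.sum_congr rfl fun x _ => Finset.sum_congr rfl fun y _ => ?_
      simp only [G]
      ring
    rw [this]
    exact mul_self_nonneg _
  · intro x
    show E (G s (-x) 0) = E (G s x 0)
    have h1 := hcorr s 0 x
    rw [zero_sub] at h1
    rw [← h1]
    congr 1
    funext p
    exact mul_comm _ _
  · intro v x hv
    show M2 (fun u => M1 (fun b => G s (v * x) 0 (b, u))) = M2 (fun u => M1 (fun b => G s x 0 (b, u)))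
    rw [← inv2 (fun u => M1 (fun b => G s x 0 (b, u))) (ofUK ⟨v, hv⟩) (hbd2 _ (hG s x 0))]
    congr 1
    funext u
    congr 1
    funext b
    have e1 : (toUK (u + ofUK ⟨v, hv⟩)).1 * x = (toUK u).1 * (v * x) := by
      rw [toUK_add, toUK_ofUK]
      ring
    simp only [G, c, e1, mul_zero]
  · intro x hx
    show M2 (fun u => M1 (fun b => G s x 0 (b, u))) = 0
    have : (fun u => M1 (fun b => G s x 0 (b, u))) = fun _ => 0 := by
      funext u
      refine zero1 _ ((toUK u).1 * x) ((toUK u).1 * 0) (hbd1 _ (hG s x 0) u) fun n b h1 h2 => ?_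
      have h3 := hcn n _ (Finset.mem_image_of_mem _ h1) _ (Finset.mem_image_of_mem _ h2) (by
        rw [dist_eq_norm]
        have : ((b + (toUK u).1 * x : KK) : ℂ) - ((b + (toUK u).1 * 0 : KK) : ℂ) =
            ((toUK u).1 : ℂ) * (x : ℂ) := by
          push_cast; ring
        rw [this, norm_mul, hx, mul_one]
        exact (toUK u).2)
      simp only [G, c, ind]
      split_ifs with h4 h5
      · exact absurd h3 (hs _ h4 _ h5)
      all_goals simp
    rw [this, hM2.const]
  · intro x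
    have hw : ∀ {X : Type} (g : X → Fin k), Bdd fun p => w (g p) := fun g =>
      ⟨∑ i, |w i|, fun p => Finset.single_le_sum (f := fun i => |w i|)
        (fun i _ => abs_nonneg _) (Finset.mem_univ _)⟩
    refine hM2.ge (hbd2 _ (hw fun p => c p x)) fun u => ?_
    have h1 := inv1 (fun b => w (cn b.1 (b.2 : ℂ))) ((toUK u).1 * x) (hw _)
    refine le_of_le_of_eq (low1 _ a (hw fun b : ℕ × KK => cn b.1 (b.2 : ℂ)) fun n => ?_) h1.symm
    have h2 := hwn n
    rwa [Finset.card_image_of_injective _ Subtype.val_injective,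
      Finset.sum_image fun x _ y _ hxy => Subtype.val_injective hxy] at h2

end Vale.Agent.N032X
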